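import Vale.Agent.P065.UB.H966.S35
import Vale.Agent.P065.UB.H102.StripsP

/-!
# P065, upper bound, line P: `StS35` (helper966)
-/

set_option autoImplicit false

namespace Vale.Agent.P065.UB.H966

/-- **S35**, steps 3, 4, 5 of line P -/
theorem stS35 : Vale.Agent.P065.UB.P.StS35 :=
  stS35_of Vale.Agent.P065.UB.stDey Vale.Agent.P065.UB.stRank
    Vale.Agent.P065.UB.H102.stStrips

end Vale.Agent.P065.UB.H966
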