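import Mathlib

/-!
# P065, upper bound: the combinatorial core of the Szemeredi-Trotter bound for monotone families
(helper966).

Points are `0, ..., v-1`. For every curve `i` there is a sequence of ranks `S i t`, `t < 2 v`:
`S i (2k)` is the rank of the curve at the point `k`, `S i (2k+1)` the rank just after it.
-/

set_option autoImplicit false

namespace Vale.Agent.P065.UB.H966

open Finset

/-- number of changes of the rows under a shift -/
lemma shift_card (H u v : ℕ) (huv : u ≤ v) :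
    #{o ∈ range H | (u + o) / H ≠ (v + o) / H} ≤ v - u := by
  classical
  have h0 : #(Ioc u v) = v - u := by simp
  rw [← h0]
  have key : ∀ w, 0 < H → (u + w) / H ≠ (v + w) / H →
      u + w < ((v + w) / H) * H ∧ ((v + w) / H) * H ≤ v + w := by
    intro w hH hn
    have h1 : (u + w) / H ≤ (v + w) / H := Nat.div_le_div_right (by omega)
    have h2 : (u + w) / H + 1 ≤ (v + w) / H := lt_of_le_of_ne h1 hn
    have h3 : ((u + w) / H + 1) * H ≤ ((v + w) / H) * H := Nat.mul_le_mul_right _ h2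
    have h5 := Nat.div_add_mod (u + w) H
    have h6 := Nat.mod_lt (u + w) hH
    have h7 : ((v + w) / H) * H ≤ v + w := Nat.div_mul_le_self _ _
    constructor
    · have h8 : ((u + w) / H + 1) * H = H * ((u + w) / H) + H := by ring
      omega
    · exact h7
  refine Finset.card_le_card_of_injOn (fun o => ((v + o) / H) * H - o) ?_ ?_
  · intro o ho
    simp only [coe_filter, mem_range, Set.mem_ofPred_eq] at ho
    obtain ⟨ho, hne⟩ := ho
    obtain ⟨h1, h2⟩ := key o (by omega) hne
    simp only [coe_Ioc, Set.mem_Ioc]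
    omega
  · intro o ho o' ho' h
    simp only [coe_filter, mem_range, Set.mem_ofPred_eq] at ho ho'
    obtain ⟨ho, hne⟩ := ho
    obtain ⟨ho', hne'⟩ := ho'
    obtain ⟨h1, h2⟩ := key o (by omega) hne
    obtain ⟨h3, h4⟩ := key o' (by omega) hne'
    simp only at h
    have e1 : o' + H * ((v + o) / H) = o + H * ((v + o') / H) := by
      rw [Nat.mul_comm H, Nat.mul_comm H]; omega
    have e2 : (o' + H * ((v + o) / H)) % H = (o + H * ((v + o') / H)) % H := by rw [e1]
    rw [Nat.add_mul_mod_self_left, Nat.add_mul_mod_self_left, Nat.mod_eq_of_lt ho,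
      Nat.mod_eq_of_lt ho'] at e2
    exact e2.symm

/-- symmetric form -/
lemma shift_card' (H u v : ℕ) :
    #{o ∈ range H | (u + o) / H ≠ (v + o) / H} ≤ (u - v) + (v - u) := by
  rcases le_total u v with h | h
  · exact (shift_card H u v h).trans (by omega)
  · have := shift_card H v u h
    have h2 : #{o ∈ range H | (u + o) / H ≠ (v + o) / H} =
        #{o ∈ range H | (v + o) / H ≠ (u + o) / H} := by
      congr 1; ext o; simp [ne_comm]
    omega

/-- a function on an interval which takes different values at the ends changes at some step -/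
lemma exists_step {α : Type*} (f : ℕ → α) {k l : ℕ} (hkl : k ≤ l) (h : f k ≠ f l) :
    ∃ t, k ≤ t ∧ t < l ∧ f (t + 1) ≠ f t := by
  by_contra hc
  push Not at hc
  apply h
  have : ∀ n, k + n ≤ l → f (k + n) = f k := by
    intro n
    induction n with
    | zero => simp
    | succ n ih =>
      intro hn
      rw [← ih (by omega)]
      exact hc (k + n) (by omega) (by omega)
  have h2 := this (l - k) (by omega)
  rw [show k + (l - k) = l by omega] at h2
  exact h2.symm

section core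

variable (v H s o : ℕ) (ρ : ℕ → ℕ)

/-- row -/
def rw_ (z : ℕ) : ℕ := (z + o) / H

/-- number of points of the row `r` before `t` -/
def cn (r t : ℕ) : ℕ := #{l ∈ range t | rw_ H o (ρ l) = r}

lemma cn_succ_of_eq {r t : ℕ} (h : rw_ H o (ρ t) = r) : cn H o ρ r (t + 1) = cn H o ρ r t + 1 := by
  unfold cn
  rw [range_add_one, filter_insert, if_pos h, card_insert_of_notMem (by simp)]

lemma cn_succ_of_ne {r t : ℕ} (h : rw_ H o (ρ t) ≠ r) : cn H o ρ r (t + 1) = cn H o ρ r t := by
  unfold cn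
  rw [range_add_one, filter_insert, if_neg h]

lemma cn_mono (r : ℕ) : Monotone (cn H o ρ r) := by
  intro a b hab
  unfold cn
  exact card_le_card (filter_subset_filter _ (range_subset_range.mpr hab))

/-- group of a point -/
def gp (k : ℕ) : ℕ × ℕ := (rw_ H o (ρ k), cn H o ρ (rw_ H o (ρ k)) k / s)

/-- the last points of full groups -/
def Bd : Finset ℕ := {t ∈ range v | s ∣ cn H o ρ (rw_ H o (ρ t)) t + 1}

lemma card_Bd : s * #(Bd v H s o ρ) ≤ v := by
  classical
  have h1 : #(Bd v H s o ρ) = ∑ r ∈ (range v).image (fun t => rw_ H o (ρ t)),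
      #{t ∈ Bd v H s o ρ | rw_ H o (ρ t) = r} := by
    apply card_eq_sum_card_fiberwise
    intro t ht
    simp only [Bd, coe_filter, mem_range, Set.mem_ofPred_eq] at ht
    simp only [coe_image, Set.mem_image, coe_range, Set.mem_Iio]
    exact ⟨t, ht.1, rfl⟩
  have h2 : v = ∑ r ∈ (range v).image (fun t => rw_ H o (ρ t)),
      #{t ∈ range v | rw_ H o (ρ t) = r} := by
    conv_lhs => rw [← card_range v]
    apply card_eq_sum_card_fiberwise
    intro t ht
    simp only [coe_image, Set.mem_image]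
    exact ⟨t, ht, rfl⟩
  rw [h1, mul_sum]
  conv_rhs => rw [h2]
  apply sum_le_sum
  intro r _
  have h3 : #{t ∈ Bd v H s o ρ | rw_ H o (ρ t) = r} ≤
      #{c ∈ range (cn H o ρ r v) | s ∣ c + 1} := by
    apply card_le_card_of_injOn (fun t => cn H o ρ r t)
    · intro t ht
      simp only [Bd, filter_filter, coe_filter, mem_range, Set.mem_ofPred_eq] at ht ⊢
      obtain ⟨ht, h4, h5⟩ := ht
      subst h5
      refine ⟨?_, h4⟩
      have := cn_succ_of_eq H o ρ (r := rw_ H o (ρ t)) (t := t) rfl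
      have h6 := cn_mono H o ρ (rw_ H o (ρ t)) (show t + 1 ≤ v by omega)
      omega
    · intro t ht t' ht' h
      simp only [Bd, filter_filter, coe_filter, mem_range, Set.mem_ofPred_eq] at ht ht'
      by_contra hne
      rcases Nat.lt_or_gt_of_ne hne with hlt | hlt
      · have := cn_succ_of_eq H o ρ (r := r) (t := t) ht.2.2
        have h6 := cn_mono H o ρ r (show t + 1 ≤ t' by omega)
        simp only at h
        omega
      · have := cn_succ_of_eq H o ρ (r := r) (t := t') ht'.2.2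
        have h6 := cn_mono H o ρ r (show t' + 1 ≤ t by omega)
        simp only at h
        omega
  have h4 : #{c ∈ range (cn H o ρ r v) | s ∣ c + 1} = cn H o ρ r v / s :=
    Nat.card_multiples _ _
  have h5 : cn H o ρ r v = #{t ∈ range v | rw_ H o (ρ t) = r} := rfl
  rw [← h5]
  calc s * #{t ∈ Bd v H s o ρ | rw_ H o (ρ t) = r} ≤ s * (cn H o ρ r v / s) := by
        apply Nat.mul_le_mul_left; omega
    _ ≤ cn H o ρ r v := Nat.mul_div_le _ _

/-- few points of the same group after `k` -/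
lemma card_gp (hs : 1 ≤ s) (k : ℕ) :
    #{l ∈ range v | k < l ∧ gp H s o ρ l = gp H s o ρ k} ≤ s := by
  classical
  set r := rw_ H o (ρ k) with hr
  set g := cn H o ρ r k / s with hg
  have h1 : #{l ∈ range v | k < l ∧ gp H s o ρ l = gp H s o ρ k} ≤ #(Ico (s * g) (s * g + s)) := by
    apply card_le_card_of_injOn (fun l => cn H o ρ r l)
    · intro l hl
      simp only [coe_filter, mem_range, Set.mem_ofPred_eq] at hl
      obtain ⟨_, _, h2⟩ := hl
      unfold gp at h2
      rw [Prod.mk.injEq] at h2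
      obtain ⟨h3, h4⟩ := h2
      rw [h3, ← hr, ← hg] at h4
      simp only [coe_Ico, Set.mem_Ico]
      have h5 := Nat.div_add_mod (cn H o ρ r l) s
      have h6 := Nat.mod_lt (cn H o ρ r l) (show 0 < s by omega)
      rw [h4] at h5
      omega
    · intro l hl l' hl' h
      simp only [coe_filter, mem_range, Set.mem_ofPred_eq] at hl hl'
      have e1 : rw_ H o (ρ l) = r := by
        have := hl.2.2; unfold gp at this; rw [Prod.mk.injEq] at this; exact this.1
      have e2 : rw_ H o (ρ l') = r := by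
        have := hl'.2.2; unfold gp at this; rw [Prod.mk.injEq] at this; exact this.1
      by_contra hne
      rcases Nat.lt_or_gt_of_ne hne with hlt | hlt
      · have := cn_succ_of_eq H o ρ (r := r) (t := l) e1
        have h6 := cn_mono H o ρ r (show l + 1 ≤ l' by omega)
        simp only at h
        omega
      · have := cn_succ_of_eq H o ρ (r := r) (t := l') e2
        have h6 := cn_mono H o ρ r (show l' + 1 ≤ l by omega)
        simp only at h
        omega
  simpa using h1

/-- two points of the same row and different groups are separated by a boundary -/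
lemma exists_bd {k l : ℕ} (hkl : k < l) (hl : l < v) (h1 : rw_ H o (ρ k) = rw_ H o (ρ l))
    (h2 : gp H s o ρ k ≠ gp H s o ρ l) :
    ∃ t ∈ Bd v H s o ρ, k ≤ t ∧ t < l ∧ rw_ H o (ρ t) = rw_ H o (ρ k) := by
  set r := rw_ H o (ρ k) with hr
  have h3 : cn H o ρ r k / s ≠ cn H o ρ r l / s := by
    intro h; apply h2; unfold gp; rw [← h1, ← hr, h]
  obtain ⟨t, ht1, ht2, ht3⟩ := exists_step (fun t => cn H o ρ r t / s) hkl.le h3
  have h4 : rw_ H o (ρ t) = r := by
    by_contra h5
    apply ht3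
    rw [cn_succ_of_ne H o ρ h5]
  refine ⟨t, ?_, ht1, ht2, h4⟩
  unfold Bd
  rw [mem_filter, mem_range]
  refine ⟨by omega, ?_⟩
  rw [h4]
  rw [cn_succ_of_eq H o ρ h4] at ht3
  by_contra h6
  apply ht3
  rw [Nat.succ_div, if_neg h6, add_zero]

end core

section main

variable {ι : Type*} (v H s : ℕ) (ρ : ℕ → ℕ) (W : Finset ι) (S : ι → ℕ → ℕ) (C : ι → Finset ℕ)

/-- changes of the row -/
def Ch (o : ℕ) (i : ι) : Finset ℕ :=
  {t ∈ range (2 * v - 1) | rw_ H o (S i (t + 1)) ≠ rw_ H o (S i t)}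

/-- the last points of a group on a curve -/
def Ml (o : ℕ) (i : ι) : Finset ℕ :=
  {k ∈ C i | ∀ l ∈ C i, k < l → gp H s o ρ l ≠ gp H s o ρ k}

/-- boundaries in the row of the curve -/
def Qs (o : ℕ) (i : ι) : Finset ℕ :=
  {q ∈ Bd v H s o ρ | rw_ H o (S i (2 * q + 1)) = rw_ H o (ρ q)}

/-- a good shift -/
lemma exists_shift (hH : 1 ≤ H)
    (hTV : ∀ i ∈ W, ∑ t ∈ range (2 * v - 1),
      ((S i (t + 1) - S i t) + (S i t - S i (t + 1))) ≤ #W) :
    ∃ o, H * ∑ i ∈ W, #(Ch v H S o i) ≤ #W * #W := by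
  classical
  have h1 : ∑ o ∈ range H, ∑ i ∈ W, #(Ch v H S o i) ≤ #W * #W := by
    rw [sum_comm]
    calc ∑ i ∈ W, ∑ o ∈ range H, #(Ch v H S o i) ≤ ∑ i ∈ W, #W := by
          apply sum_le_sum
          intro i hi
          refine le_trans ?_ (hTV i hi)
          have h2 : ∀ o, #(Ch v H S o i) =
              ∑ t ∈ range (2 * v - 1), if rw_ H o (S i (t + 1)) ≠ rw_ H o (S i t) then 1 else 0 := by
            intro o; unfold Ch; rw [card_filter]
          simp_rw [h2]
          rw [sum_comm]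
          apply sum_le_sum
          intro t _
          rw [← card_filter]
          exact shift_card' H _ _
      _ = #W * #W := by rw [sum_const, smul_eq_mul]
  by_contra hc
  push Not at hc
  have h3 : ∑ o ∈ range H, #W * #W < ∑ o ∈ range H, H * ∑ i ∈ W, #(Ch v H S o i) := by
    apply sum_lt_sum_of_nonempty
    · exact nonempty_range_iff.mpr (by omega)
    · intro o _; exact hc o
  rw [sum_const, card_range, smul_eq_mul, ← mul_sum] at h3
  have h4 : H * ∑ o ∈ range H, ∑ i ∈ W, #(Ch v H S o i) ≤ H * (#W * #W) :=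
    Nat.mul_le_mul_left _ h1
  omega

lemma card_Ml (o : ℕ) {i : ι} (hC : C i ⊆ range v) (hval : ∀ k ∈ C i, S i (2 * k) = ρ k) :
    #(Ml H s ρ C o i) ≤ 1 + #(Ch v H S o i) + #(Qs v H s ρ S o i) := by
  classical
  set M := Ml H s ρ C o i with hM
  have hsub : M ⊆ {k ∈ M | ∀ l ∈ C i, ¬ k < l} ∪
      ({k ∈ M | ∃ t ∈ Ch v H S o i, 2 * k ≤ t ∧ ∀ l ∈ C i, k < l → t < 2 * l} ∪
       {k ∈ M | ∃ q ∈ Qs v H s ρ S o i, k ≤ q ∧ ∀ l ∈ C i, k < l → q < l}) := by
    intro k hk
    have hk0 := hk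
    rw [hM] at hk0
    unfold Ml at hk0
    rw [mem_filter] at hk0
    obtain ⟨hkC, hkl⟩ := hk0
    by_cases hl : ∀ l ∈ C i, ¬ k < l
    · exact mem_union_left _ (mem_filter.mpr ⟨hk, hl⟩)
    · apply mem_union_right
      push Not at hl
      obtain ⟨l0, hl0, hkl0⟩ := hl
      have hne : ({l ∈ C i | k < l}).Nonempty := ⟨l0, mem_filter.mpr ⟨hl0, hkl0⟩⟩
      set l := ({l ∈ C i | k < l}).min' hne with hldef
      have hlmem := min'_mem _ hne
      rw [← hldef, mem_filter] at hlmem
      have hlmin : ∀ l' ∈ C i, k < l' → l ≤ l' := by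
        intro l' h1 h2
        exact min'_le _ _ (mem_filter.mpr ⟨h1, h2⟩)
      have hlv : l < v := mem_range.mp (hC hlmem.1)
      by_cases hch : ∃ t, 2 * k ≤ t ∧ t < 2 * l ∧ rw_ H o (S i (t + 1)) ≠ rw_ H o (S i t)
      · obtain ⟨t, ht1, ht2, ht3⟩ := hch
        apply mem_union_left
        rw [mem_filter]
        refine ⟨hk, t, ?_, ht1, fun l' h1 h2 => ?_⟩
        · unfold Ch
          rw [mem_filter, mem_range]
          exact ⟨by omega, ht3⟩
        · have := hlmin l' h1 h2; omega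
      · apply mem_union_right
        have hcon : ∀ t, 2 * k ≤ t → t ≤ 2 * l → rw_ H o (S i t) = rw_ H o (S i (2 * k)) := by
          intro t h1 h2
          by_contra h3
          obtain ⟨t', h4, h5, h6⟩ := exists_step (fun t => rw_ H o (S i t)) h1 (Ne.symm h3)
          exact hch ⟨t', h4, by omega, h6⟩
        have h1 : rw_ H o (ρ k) = rw_ H o (ρ l) := by
          rw [← hval k hkC, ← hval l hlmem.1]
          exact (hcon (2 * l) (by omega) le_rfl).symm
        obtain ⟨q, hq1, hq2, hq3, hq4⟩ := exists_bd v H s o ρ hlmem.2 hlv h1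
          (Ne.symm (hkl l hlmem.1 hlmem.2))
        rw [mem_filter]
        refine ⟨hk, q, ?_, hq2, fun l' h1 h2 => ?_⟩
        · unfold Qs
          rw [mem_filter]
          refine ⟨hq1, ?_⟩
          rw [hcon (2 * q + 1) (by omega) (by omega), hq4, hval k hkC]
        · have := hlmin l' h1 h2; omega
  have hMC : ∀ k ∈ M, k ∈ C i := by
    intro k hk
    rw [hM] at hk
    unfold Ml at hk
    exact (mem_filter.mp hk).1
  have h1 : #{k ∈ M | ∀ l ∈ C i, ¬ k < l} ≤ 1 := by
    rw [card_le_one]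
    intro a ha b hb
    rw [mem_filter] at ha hb
    have := ha.2 b (hMC b hb.1)
    have := hb.2 a (hMC a ha.1)
    omega
  have h2 : #{k ∈ M | ∃ t ∈ Ch v H S o i, 2 * k ≤ t ∧ ∀ l ∈ C i, k < l → t < 2 * l} ≤
      #(Ch v H S o i) := by
    apply card_le_card_of_forall_subsingleton
      (fun k t => 2 * k ≤ t ∧ ∀ l ∈ C i, k < l → t < 2 * l)
    · intro k hk
      exact (mem_filter.mp hk).2
    · intro t _ a ha b hb
      obtain ⟨ha1, ha2, ha3⟩ := ha
      obtain ⟨hb1, hb2, hb3⟩ := hb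
      have haM := hMC a (mem_filter.mp ha1).1
      have hbM := hMC b (mem_filter.mp hb1).1
      by_contra hne
      rcases Nat.lt_or_gt_of_ne hne with hlt | hlt
      · have := ha3 b hbM hlt; omega
      · have := hb3 a haM hlt; omega
  have h3 : #{k ∈ M | ∃ q ∈ Qs v H s ρ S o i, k ≤ q ∧ ∀ l ∈ C i, k < l → q < l} ≤
      #(Qs v H s ρ S o i) := by
    apply card_le_card_of_forall_subsingleton
      (fun k q => k ≤ q ∧ ∀ l ∈ C i, k < l → q < l)
    · intro k hk
      exact (mem_filter.mp hk).2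
    · intro t _ a ha b hb
      obtain ⟨ha1, ha2, ha3⟩ := ha
      obtain ⟨hb1, hb2, hb3⟩ := hb
      have haM := hMC a (mem_filter.mp ha1).1
      have hbM := hMC b (mem_filter.mp hb1).1
      by_contra hne
      rcases Nat.lt_or_gt_of_ne hne with hlt | hlt
      · have := ha3 b hbM hlt; omega
      · have := hb3 a haM hlt; omega
  calc #M ≤ _ := card_le_card hsub
    _ ≤ #{k ∈ M | ∀ l ∈ C i, ¬ k < l} +
      (#{k ∈ M | ∃ t ∈ Ch v H S o i, 2 * k ≤ t ∧ ∀ l ∈ C i, k < l → t < 2 * l} +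
       #{k ∈ M | ∃ q ∈ Qs v H s ρ S o i, k ≤ q ∧ ∀ l ∈ C i, k < l → q < l}) := by
        refine (card_union_le _ _).trans ?_
        gcongr
        exact card_union_le _ _
    _ ≤ _ := by omega

lemma sum_Qs (hH : 1 ≤ H) (o : ℕ)
    (hinj : ∀ k < v, ∀ i ∈ W, ∀ j ∈ W, S i (2 * k + 1) = S j (2 * k + 1) → i = j) :
    ∑ i ∈ W, #(Qs v H s ρ S o i) ≤ #(Bd v H s o ρ) * H := by
  classical
  unfold Qs
  simp_rw [card_filter]
  rw [sum_comm, ← smul_eq_mul, ← sum_const]
  apply sum_le_sum
  intro q hq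
  have hqv : q < v := by
    unfold Bd at hq; rw [mem_filter, mem_range] at hq; exact hq.1
  rw [← card_filter]
  have h1 : #{i ∈ W | rw_ H o (S i (2 * q + 1)) = rw_ H o (ρ q)} ≤
      #(Ico (H * rw_ H o (ρ q)) (H * rw_ H o (ρ q) + H)) := by
    apply card_le_card_of_injOn (fun i => S i (2 * q + 1) + o)
    · intro i hi
      simp only [coe_filter, Set.mem_ofPred_eq] at hi
      simp only [coe_Ico, Set.mem_Ico]
      have h2 := hi.2
      rw [← h2]
      unfold rw_
      have h5 := Nat.div_add_mod (S i (2 * q + 1) + o) H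
      have h6 := Nat.mod_lt (S i (2 * q + 1) + o) (show 0 < H by omega)
      omega
    · intro i hi j hj h
      simp only [coe_filter, Set.mem_ofPred_eq] at hi hj
      apply hinj q hqv i hi.1 j hj.1
      simpa using h
  simpa using h1

lemma sum_rest (hs : 1 ≤ s) (o : ℕ) (hC : ∀ i ∈ W, C i ⊆ range v)
    (hpair : ∀ i ∈ W, ∀ j ∈ W, ∀ k l, k < l → k ∈ C i → l ∈ C i → k ∈ C j → l ∈ C j → i = j) :
    ∑ i ∈ W, #(C i \ Ml H s ρ C o i) ≤ v * s := by
  classical
  rw [← card_sigma]
  have h1 : #(W.sigma fun i => C i \ Ml H s ρ C o i) ≤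
      #((range v).sigma fun k => {l ∈ range v | k < l ∧ gp H s o ρ l = gp H s o ρ k}) := by
    apply card_le_card_of_forall_subsingleton
      (fun (a : Σ _ : ι, ℕ) (b : Σ _ : ℕ, ℕ) => a.2 = b.1 ∧ b.1 < b.2 ∧ b.1 ∈ C a.1 ∧ b.2 ∈ C a.1)
    · rintro ⟨i, k⟩ ha
      rw [mem_sigma, mem_sdiff] at ha
      obtain ⟨hi, hk, hk2⟩ := ha
      unfold Ml at hk2
      rw [mem_filter] at hk2
      push Not at hk2
      obtain ⟨l, hl, hkl, hg⟩ := hk2 hk
      refine ⟨⟨k, l⟩, ?_, rfl, hkl, hk, hl⟩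
      rw [mem_sigma, mem_filter]
      exact ⟨hC i hi hk, hC i hi hl, hkl, hg⟩
    · rintro ⟨k, l⟩ _ ⟨i, a⟩ ha ⟨j, b⟩ hb
      obtain ⟨ha1, ha2, ha3, ha4, ha5⟩ := ha
      obtain ⟨hb1, hb2, hb3, hb4, hb5⟩ := hb
      simp only at ha2 ha3 ha4 ha5 hb2 hb3 hb4 hb5
      subst ha2
      subst hb2
      have hi : i ∈ W := (mem_sigma.mp ha1).1
      have hj : j ∈ W := (mem_sigma.mp hb1).1
      have := hpair i hi j hj _ l ha3 ha4 ha5 hb4 hb5
      subst this
      rfl
  refine h1.trans ?_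
  rw [card_sigma]
  calc _ ≤ ∑ k ∈ range v, s := sum_le_sum fun k _ => card_gp v H s o ρ hs k
    _ = v * s := by rw [sum_const, card_range, smul_eq_mul]

/-- **combinatorial Szemeredi-Trotter bound** -/
theorem comb (hH : 1 ≤ H) (hs : 1 ≤ s) (hC : ∀ i ∈ W, C i ⊆ range v)
    (hval : ∀ i ∈ W, ∀ k ∈ C i, S i (2 * k) = ρ k)
    (hinj : ∀ k < v, ∀ i ∈ W, ∀ j ∈ W, S i (2 * k + 1) = S j (2 * k + 1) → i = j)
    (hTV : ∀ i ∈ W, ∑ t ∈ range (2 * v - 1),
      ((S i (t + 1) - S i t) + (S i t - S i (t + 1))) ≤ #W)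
    (hpair : ∀ i ∈ W, ∀ j ∈ W, ∀ k l, k < l → k ∈ C i → l ∈ C i → k ∈ C j → l ∈ C j → i = j) :
    (∑ i ∈ W, (#(C i) : ℝ)) ≤ #W + (#W : ℝ) ^ 2 / H + (v : ℝ) * H / s + v * s := by
  classical
  obtain ⟨o, ho⟩ := exists_shift v H W S hH hTV
  have h1 : ∑ i ∈ W, #(C i) ≤
      #W + ∑ i ∈ W, #(Ch v H S o i) + #(Bd v H s o ρ) * H + v * s := by
    calc ∑ i ∈ W, #(C i) = ∑ i ∈ W, (#(C i \ Ml H s ρ C o i) + #(Ml H s ρ C o i)) := by
          apply sum_congr rfl
          intro i _
          exact (card_sdiff_add_card_eq_card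
            (show Ml H s ρ C o i ⊆ C i from filter_subset _ _)).symm
      _ ≤ ∑ i ∈ W, (#(C i \ Ml H s ρ C o i) + (1 + #(Ch v H S o i) + #(Qs v H s ρ S o i))) := by
          apply sum_le_sum
          intro i hi
          gcongr
          exact card_Ml v H s ρ S C o (hC i hi) (hval i hi)
      _ = ∑ i ∈ W, #(C i \ Ml H s ρ C o i) + #W + ∑ i ∈ W, #(Ch v H S o i)
            + ∑ i ∈ W, #(Qs v H s ρ S o i) := by
          rw [sum_add_distrib, sum_add_distrib, sum_add_distrib, sum_const, smul_eq_mul, mul_one]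
          ring
      _ ≤ _ := by
          have h2 := sum_rest v H s ρ W C hs o hC hpair
          have h3 := sum_Qs v H s ρ W S hH o hinj
          omega
  have h2 := card_Bd v H s o ρ
  have hHr : (0 : ℝ) < H := by exact_mod_cast hH
  have hsr : (0 : ℝ) < s := by exact_mod_cast hs
  have h3 : (∑ i ∈ W, (#(C i) : ℝ)) ≤
      #W + ∑ i ∈ W, (#(Ch v H S o i) : ℝ) + #(Bd v H s o ρ) * H + v * s := by
    exact_mod_cast h1
  have h4 : ∑ i ∈ W, (#(Ch v H S o i) : ℝ) ≤ (#W : ℝ) ^ 2 / H := by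
    rw [le_div_iff₀ hHr, sq, mul_comm]
    exact_mod_cast ho
  have h5 : (#(Bd v H s o ρ) : ℝ) * H ≤ (v : ℝ) * H / s := by
    rw [le_div_iff₀ hsr]
    have : (s : ℝ) * #(Bd v H s o ρ) ≤ v := by exact_mod_cast h2
    nlinarith
  linarith

end main

end Vale.Agent.P065.UB.H966
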