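import Vale.Agent.P065.UB.Defs
import Vale.Agent.P065.UB.H966.Comb

/-!
# P065, upper bound: Szemeredi-Trotter bound for chains with disjoint intervals of slopes
(helper966).
-/

set_option autoImplicit false

namespace Vale.Agent.P065.UB.H966

open Finset

/-- all difference quotients of `f` lie in `[a, b]` -/
structure Curve (f : ℝ → ℝ) (a b : ℝ) : Prop where
  lo : ∀ x y, x ≤ y → a * (y - x) ≤ f y - f x
  hi : ∀ x y, x ≤ y → f y - f x ≤ b * (y - x)

/-- extension of a chain to a curve -/
lemma exists_curve (C : Finset Pt) (hne : C.Nonempty) (a b : ℝ) (hab : a ≤ b)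
    (h : ∀ p ∈ C, ∀ q ∈ C, p.1 < q.1 → a ≤ sl p q ∧ sl p q ≤ b)
    (hx : ∀ p ∈ C, ∀ q ∈ C, p.1 = q.1 → p = q) :
    ∃ f : ℝ → ℝ, Curve f a b ∧ ∀ p ∈ C, f p.1 = p.2 := by
  classical
  set g : ℝ → ℝ := fun t => max (a * t) (b * t) with hg
  have hg1 : ∀ s t, g (s + t) ≤ g s + g t := by
    intro s t
    simp only [hg]
    apply max_le
    · have := le_max_left (a * s) (b * s)
      have := le_max_left (a * t) (b * t)
      linarith
    · have := le_max_right (a * s) (b * s)
      have := le_max_right (a * t) (b * t)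
      linarith
  have hg2 : ∀ t, 0 ≤ t → g t = b * t := by
    intro t ht
    simp only [hg]
    exact max_eq_right (mul_le_mul_of_nonneg_right hab ht)
  have hg3 : ∀ t, 0 ≤ t → g (-t) = -(a * t) := by
    intro t ht
    simp only [hg]
    rw [max_eq_left]
    · ring
    · have := mul_le_mul_of_nonneg_right hab ht
      linarith
  have hkey : ∀ x y, C.inf' hne (fun p => p.2 + g (y - p.1)) ≤
      C.inf' hne (fun p => p.2 + g (x - p.1)) + g (y - x) := by
    intro x y
    obtain ⟨p, hp, hpe⟩ := Finset.exists_mem_eq_inf' hne (fun p : Pt => p.2 + g (x - p.1))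
    rw [hpe]
    refine (Finset.inf'_le (fun p : Pt => p.2 + g (y - p.1)) hp).trans ?_
    have := hg1 (x - p.1) (y - x)
    rw [show x - p.1 + (y - x) = y - p.1 by ring] at this
    linarith
  refine ⟨fun x => C.inf' hne (fun p => p.2 + g (x - p.1)), ⟨?_, ?_⟩, ?_⟩
  · intro x y hxy
    have h1 := hkey y x
    rw [show x - y = -(y - x) by ring, hg3 (y - x) (by linarith)] at h1
    linarith
  · intro x y hxy
    have h1 := hkey x y
    rw [hg2 (y - x) (by linarith)] at h1
    linarith
  · intro q hq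
    simp only
    apply le_antisymm
    · refine (Finset.inf'_le (fun p : Pt => p.2 + g (q.1 - p.1)) hq).trans ?_
      simp [hg]
    · apply Finset.le_inf'
      intro p hp
      rcases lt_trichotomy p.1 q.1 with h1 | h1 | h1
      · obtain ⟨_, h3⟩ := h p hp q hq h1
        unfold sl at h3
        rw [div_le_iff₀ (by linarith)] at h3
        rw [hg2 _ (by linarith)]
        linarith
      · have := hx p hp q hq h1
        subst this
        simp [hg]
      · obtain ⟨h3, _⟩ := h q hq p hp h1
        unfold sl at h3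
        rw [le_div_iff₀ (by linarith)] at h3
        rw [show q.1 - p.1 = -(p.1 - q.1) by ring, hg3 _ (by linarith)]
        linarith

/-- data of one curve -/
lemma exists_data (C : Finset Pt) (hx : ∀ p ∈ C, ∀ q ∈ C, p.1 = q.1 → p = q) (h2 : 2 ≤ #C)
    (I : Set ℝ) (hsl : ∀ p ∈ C, ∀ q ∈ C, p.1 < q.1 → sl p q ∈ I) :
    ∃ (a b : ℝ) (f : ℝ → ℝ), a ∈ I ∧ b ∈ I ∧ a ≤ b ∧ Curve f a b ∧ ∀ p ∈ C, f p.1 = p.2 := by
  classical
  set E : Finset (Pt × Pt) := {e ∈ C ×ˢ C | e.1.1 < e.2.1} with hE
  have hEne : E.Nonempty := by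
    obtain ⟨p, hp, q, hq, hpq⟩ := Finset.one_lt_card.mp h2
    have h3 : p.1 ≠ q.1 := fun h => hpq (hx p hp q hq h)
    rcases lt_or_gt_of_ne h3 with h4 | h4
    · exact ⟨(p, q), by rw [hE, mem_filter, mem_product]; exact ⟨⟨hp, hq⟩, h4⟩⟩
    · exact ⟨(q, p), by rw [hE, mem_filter, mem_product]; exact ⟨⟨hq, hp⟩, h4⟩⟩
  have hmem : ∀ e ∈ E, e.1 ∈ C ∧ e.2 ∈ C ∧ e.1.1 < e.2.1 := by
    intro e he
    rw [hE, mem_filter, mem_product] at he
    exact ⟨he.1.1, he.1.2, he.2⟩
  obtain ⟨e1, he1, hmin⟩ := Finset.exists_min_image E (fun e => sl e.1 e.2) hEne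
  obtain ⟨e2, he2, hmax⟩ := Finset.exists_max_image E (fun e => sl e.1 e.2) hEne
  have hab : sl e1.1 e1.2 ≤ sl e2.1 e2.2 := hmin e2 he2
  obtain ⟨f, hf, hfC⟩ := exists_curve C (Finset.card_pos.mp (by omega)) _ _ hab
    (fun p hp q hq hpq => by
      have he : (p, q) ∈ E := by rw [hE, mem_filter, mem_product]; exact ⟨⟨hp, hq⟩, hpq⟩
      exact ⟨hmin (p, q) he, hmax (p, q) he⟩) hx
  obtain ⟨m1, m2, m3⟩ := hmem e1 he1
  obtain ⟨m4, m5, m6⟩ := hmem e2 he2
  exact ⟨_, _, f, hsl _ m1 _ m2 m3, hsl _ m4 _ m5 m6, hab, hf, hfC⟩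

lemma tsub_sum_le {ι : Type*} (W : Finset ι) (x y : ι → ℕ) :
    (∑ j ∈ W, x j - ∑ j ∈ W, y j) + (∑ j ∈ W, y j - ∑ j ∈ W, x j) ≤
      ∑ j ∈ W, ((x j - y j) + (y j - x j)) := by
  rw [sum_add_distrib]
  have h1 : ∀ x y : ι → ℕ, ∑ j ∈ W, x j ≤ ∑ j ∈ W, y j + ∑ j ∈ W, (x j - y j) := by
    intro x y
    rw [← sum_add_distrib]
    exact sum_le_sum fun j _ => by omega
  have := h1 x y
  have := h1 y x
  omega

lemma tv_mono (b : ℕ → ℕ) (n : ℕ) (h : ∀ t < n, b t ≤ b (t + 1)) :
    ∑ t ∈ range n, ((b (t + 1) - b t) + (b t - b (t + 1))) + b 0 = b n := by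
  induction n with
  | zero => simp
  | succ n ih =>
    rw [sum_range_succ]
    have := ih (fun t ht => h t (by omega))
    have := h n (by omega)
    omega

lemma tv_anti (b : ℕ → ℕ) (n : ℕ) (h : ∀ t < n, b (t + 1) ≤ b t) :
    ∑ t ∈ range n, ((b (t + 1) - b t) + (b t - b (t + 1))) + b n = b 0 := by
  induction n with
  | zero => simp
  | succ n ih =>
    rw [sum_range_succ]
    have := ih (fun t ht => h t (by omega))
    have := h n (by omega)
    omega

/-- the points sorted by abscissa -/
lemma exists_sorted (V : Finset Pt) (hV : ∀ p ∈ V, ∀ q ∈ V, p.1 = q.1 → p = q) :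
    ∃ P : ℕ → Pt, (∀ k < #V, P k ∈ V) ∧ (∀ k l, k < l → l < #V → (P k).1 < (P l).1) ∧
      ∀ p ∈ V, ∃ k < #V, P k = p := by
  classical
  have hc : #(V.image Prod.fst) = #V := card_image_of_injOn fun p hp q hq h => hV p hp q hq h
  set e := (V.image Prod.fst).orderEmbOfFin hc with he
  have h1 : ∀ i : Fin #V, ∃ p ∈ V, p.1 = e i := by
    intro i
    have := Finset.orderEmbOfFin_mem (V.image Prod.fst) hc i
    rw [mem_image] at this
    obtain ⟨p, hp, hp2⟩ := this
    exact ⟨p, hp, hp2⟩
  choose Q hQ hQ2 using h1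
  refine ⟨fun k => if h : k < #V then Q ⟨k, h⟩ else (0, 0), ?_, ?_, ?_⟩
  · intro k hk
    simp only [hk, dif_pos]
    exact hQ _
  · intro k l hkl hl
    have hk : k < #V := by omega
    simp only [hk, hl, dif_pos]
    rw [hQ2, hQ2]
    exact e.strictMono (by simpa using hkl)
  · intro p hp
    have h2 : p.1 ∈ Set.range e := by
      rw [he, Finset.range_orderEmbOfFin]
      simp only [coe_image, Set.mem_image]
      exact ⟨p, hp, rfl⟩
    obtain ⟨i, hi⟩ := h2
    refine ⟨i.1, i.2, ?_⟩
    simp only [i.2, dif_pos]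
    exact hV _ (hQ _) _ hp (by rw [hQ2, Fin.eta, hi])

/-- **Szemeredi-Trotter bound** for curves with disjoint intervals of slopes -/
theorem pst_curves (V : Finset Pt) (hV : ∀ p ∈ V, ∀ q ∈ V, p.1 = q.1 → p = q)
    {ι : Type*} (W : Finset ι) (C : ι → Finset Pt) (a b : ι → ℝ) (f : ι → ℝ → ℝ)
    (hC : ∀ i ∈ W, C i ⊆ V)
    (hsep : ∀ i ∈ W, ∀ j ∈ W, i ≠ j → b i < a j ∨ b j < a i)
    (hab : ∀ i ∈ W, a i ≤ b i)
    (hf : ∀ i ∈ W, Curve (f i) (a i) (b i)) (hfC : ∀ i ∈ W, ∀ p ∈ C i, f i p.1 = p.2)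
    (H s : ℕ) (hH : 1 ≤ H) (hs : 1 ≤ s) :
    (∑ i ∈ W, (#(C i) : ℝ)) ≤ #W + (#W : ℝ) ^ 2 / H + (#V : ℝ) * H / s + #V * s := by
  classical
  obtain ⟨P, hP1, hP2, hP3⟩ := exists_sorted V hV
  set X : ℕ → ℝ := fun k => (P k).1 with hX
  -- the differences
  have hinc : ∀ i ∈ W, ∀ j ∈ W, a j < a i → ∀ x y, x < y →
      f i x - f j x < f i y - f j y := by
    intro i hi j hj hji x y hxy
    have hij : i ≠ j := by rintro rfl; exact lt_irrefl _ hji
    have hb : b j < a i := by
      rcases hsep i hi j hj hij with h | h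
      · have := hab i hi; linarith
      · exact h
    have h1 := (hf i hi).lo x y hxy.le
    have h2 := (hf j hj).hi x y hxy.le
    nlinarith
  have htri : ∀ i ∈ W, ∀ j ∈ W, i ≠ j → a i < a j ∨ a j < a i := by
    intro i hi j hj hij
    rcases hsep i hi j hj hij with h | h
    · left; have := hab i hi; linarith
    · right; have := hab j hj; linarith
  set S : ι → ℕ → ℕ := fun i t =>
    if t % 2 = 0 then #{j ∈ W | f j (X (t / 2)) < f i (X (t / 2))}
    else #{j ∈ W | f j (X (t / 2)) < f i (X (t / 2)) ∨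
      (f j (X (t / 2)) = f i (X (t / 2)) ∧ a j < a i)} with hS
  have hSe : ∀ i k, S i (2 * k) = #{j ∈ W | f j (X k) < f i (X k)} := by
    intro i k
    simp only [hS]
    rw [if_pos (by omega), show 2 * k / 2 = k by omega]
  have hSo : ∀ i k, S i (2 * k + 1) = #{j ∈ W | f j (X k) < f i (X k) ∨
      (f j (X k) = f i (X k) ∧ a j < a i)} := by
    intro i k
    simp only [hS]
    rw [if_neg (by omega), show (2 * k + 1) / 2 = k by omega]
  set C' : ι → Finset ℕ := fun i => {k ∈ range #V | P k ∈ C i} with hC'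
  have hcard : ∀ i ∈ W, (#(C i) : ℝ) ≤ #(C' i) := by
    intro i hi
    have : #(C i) ≤ #(C' i) := by
      apply card_le_card_of_forall_subsingleton (fun p k => P k = p)
      · intro p hp
        obtain ⟨k, hk, hk2⟩ := hP3 p (hC i hi hp)
        refine ⟨k, ?_, hk2⟩
        rw [hC', mem_filter, mem_range]
        exact ⟨hk, by rw [hk2]; exact hp⟩
      · intro k _ p hp q hq
        exact hp.2.symm.trans hq.2
    exact_mod_cast this
  have main := comb #V H s (fun k => #{j ∈ W | f j (X k) < (P k).2}) W S C' hH hs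
    (fun i _ => filter_subset _ _)
    (by
      intro i hi k hk
      rw [hC', mem_filter, mem_range] at hk
      rw [hSe]
      have : f i (X k) = (P k).2 := hfC i hi _ hk.2
      rw [this])
    (by
      intro k hk i hi j hj hij
      by_contra hne
      rw [hSo, hSo] at hij
      -- order
      have key : ∀ i ∈ W, ∀ j ∈ W, (f j (X k) < f i (X k) ∨ (f j (X k) = f i (X k) ∧ a j < a i)) →
          #{l ∈ W | f l (X k) < f j (X k) ∨ (f l (X k) = f j (X k) ∧ a l < a j)} <
          #{l ∈ W | f l (X k) < f i (X k) ∨ (f l (X k) = f i (X k) ∧ a l < a i)} := by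
        intro i _ j hj h
        apply card_lt_card
        rw [Finset.ssubset_iff_of_subset]
        · refine ⟨j, mem_filter.mpr ⟨hj, h⟩, ?_⟩
          rw [mem_filter]
          rintro ⟨_, h2 | h2⟩
          · exact lt_irrefl _ h2
          · exact lt_irrefl _ h2.2
        · intro l hl
          rw [mem_filter] at hl ⊢
          refine ⟨hl.1, ?_⟩
          rcases hl.2 with h2 | ⟨h2, h3⟩
          · rcases h with h4 | ⟨h4, h5⟩
            · left; linarith
            · left; linarith
          · rcases h with h4 | ⟨h4, h5⟩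
            · left; linarith
            · right; exact ⟨by linarith, by linarith⟩
      rcases lt_trichotomy (f i (X k)) (f j (X k)) with h | h | h
      · have := key j hj i hi (Or.inl h); omega
      · rcases htri i hi j hj hne with h2 | h2
        · have := key j hj i hi (Or.inr ⟨h, h2⟩); omega
        · have := key i hi j hj (Or.inr ⟨h.symm, h2⟩); omega
      · have := key i hi j hj (Or.inl h); omega)
    (by
      intro i hi
      -- indicators
      set B : ι → ℕ → ℕ := fun j t =>
        if t % 2 = 0 then (if f j (X (t / 2)) < f i (X (t / 2)) then 1 else 0)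
        else (if f j (X (t / 2)) < f i (X (t / 2)) ∨
          (f j (X (t / 2)) = f i (X (t / 2)) ∧ a j < a i) then 1 else 0) with hB
      have hSB : ∀ t, S i t = ∑ j ∈ W, B j t := by
        intro t
        simp only [hS, hB]
        split_ifs with h
        · rw [card_filter]
        · rw [card_filter]
      have hB1 : ∀ j t, B j t ≤ 1 := by
        intro j t; simp only [hB]; split_ifs <;> omega
      have hBe : ∀ j k, B j (2 * k) = if f j (X k) < f i (X k) then 1 else 0 := by
        intro j k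
        simp only [hB]
        rw [if_pos (by omega), show 2 * k / 2 = k by omega]
      have hBo : ∀ j k, B j (2 * k + 1) = if f j (X k) < f i (X k) ∨
          (f j (X k) = f i (X k) ∧ a j < a i) then 1 else 0 := by
        intro j k
        simp only [hB]
        rw [if_neg (by omega), show (2 * k + 1) / 2 = k by omega]
      have hBtv : ∀ j ∈ W, ∑ t ∈ range (2 * #V - 1),
          ((B j (t + 1) - B j t) + (B j t - B j (t + 1))) ≤ 1 := by
        intro j hj
        by_cases hij : i = j
        · subst hij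
          have h0 : ∀ t, B i t = 0 := by
            intro t
            simp only [hB]
            simp
          simp [h0]
        rcases htri i hi j hj hij with h | h
        · -- f i - f j decreasing
          have := tv_anti (B j) (2 * #V - 1) (by
            intro t ht
            obtain ⟨k, hk | hk⟩ : ∃ k, t = 2 * k ∨ t = 2 * k + 1 := ⟨t / 2, by omega⟩
            · subst hk
              rw [hBe, hBo]
              split_ifs with h1 h2 h2 <;> try omega
              rcases h1 with h1 | h1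
              · exact absurd h1 h2
              · exact absurd h1.2 (by linarith)
            · subst hk
              rw [show 2 * k + 1 + 1 = 2 * (k + 1) by ring, hBe, hBo]
              split_ifs with h1 h2 h2 <;> try omega
              exfalso
              apply h2
              left
              have := hinc j hj i hi h (X k) (X (k + 1)) (hP2 k (k + 1) (by omega) (by omega))
              linarith)
          have := hB1 j 0
          omega
        · have := tv_mono (B j) (2 * #V - 1) (by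
            intro t ht
            obtain ⟨k, hk | hk⟩ : ∃ k, t = 2 * k ∨ t = 2 * k + 1 := ⟨t / 2, by omega⟩
            · subst hk
              rw [hBe, hBo]
              split_ifs with h1 h2 h2 <;> try omega
              exact absurd (Or.inl h1) h2
            · subst hk
              rw [show 2 * k + 1 + 1 = 2 * (k + 1) by ring, hBe, hBo]
              split_ifs with h1 h2 h2 <;> try omega
              exfalso
              apply h2
              have := hinc i hi j hj h (X k) (X (k + 1)) (hP2 k (k + 1) (by omega) (by omega))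
              rcases h1 with h1 | h1
              · linarith
              · have := h1.1; linarith)
          have := hB1 j (2 * #V - 1)
          omega
      calc ∑ t ∈ range (2 * #V - 1), ((S i (t + 1) - S i t) + (S i t - S i (t + 1)))
          ≤ ∑ t ∈ range (2 * #V - 1), ∑ j ∈ W, ((B j (t + 1) - B j t) + (B j t - B j (t + 1))) := by
            apply sum_le_sum
            intro t _
            rw [hSB, hSB]
            exact tsub_sum_le W _ _
        _ = ∑ j ∈ W, ∑ t ∈ range (2 * #V - 1), ((B j (t + 1) - B j t) + (B j t - B j (t + 1))) :=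
            sum_comm
        _ ≤ ∑ j ∈ W, 1 := sum_le_sum hBtv
        _ = #W := by simp)
    (by
      intro i hi j hj k l hkl h1 h2 h3 h4
      rw [hC', mem_filter, mem_range] at h1 h2 h3 h4
      by_contra hne
      have hlt := hP2 k l hkl h2.1
      have e1 := hfC i hi _ h1.2
      have e2 := hfC i hi _ h2.2
      have e3 := hfC j hj _ h3.2
      have e4 := hfC j hj _ h4.2
      rcases htri i hi j hj hne with h | h
      · have := hinc j hj i hi h _ _ hlt
        linarith
      · have := hinc i hi j hj h _ _ hlt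
        linarith)
  calc (∑ i ∈ W, (#(C i) : ℝ)) ≤ ∑ i ∈ W, (#(C' i) : ℝ) := sum_le_sum hcard
    _ ≤ _ := main

/-- **PST**: Szemeredi-Trotter bound for chains with pairwise disjoint intervals of slopes -/
theorem pst (V : Finset Pt) (hV : ∀ p ∈ V, ∀ q ∈ V, p.1 = q.1 → p = q)
    {ι : Type*} (W : Finset ι) (C : ι → Finset Pt) (I : ι → Set ℝ)
    (hC : ∀ i ∈ W, C i ⊆ V) (hI : ∀ i ∈ W, (I i).OrdConnected)
    (hd : ∀ i ∈ W, ∀ j ∈ W, i ≠ j → Disjoint (I i) (I j))
    (hsl : ∀ i ∈ W, ∀ p ∈ C i, ∀ q ∈ C i, p.1 < q.1 → sl p q ∈ I i)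
    (H s : ℕ) (hH : 1 ≤ H) (hs : 1 ≤ s) :
    (∑ i ∈ W, (#(C i) : ℝ)) ≤ 2 * #W + (#W : ℝ) ^ 2 / H + (#V : ℝ) * H / s + #V * s := by
  classical
  set W' : Finset ι := {i ∈ W | 2 ≤ #(C i)} with hW'
  have hWW : W' ⊆ W := filter_subset _ _
  have hdata : ∀ i, ∃ (a b : ℝ) (f : ℝ → ℝ), i ∈ W' → a ∈ I i ∧ b ∈ I i ∧ a ≤ b ∧ Curve f a b ∧
      ∀ p ∈ C i, f p.1 = p.2 := by
    intro i
    by_cases hi : i ∈ W'
    · have hi2 := hi
      rw [hW', mem_filter] at hi2
      obtain ⟨a, b, f, h⟩ := exists_data (C i)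
        (fun p hp q hq => hV p (hC i hi2.1 hp) q (hC i hi2.1 hq)) hi2.2 (I i) (hsl i hi2.1)
      exact ⟨a, b, f, fun _ => h⟩
    · exact ⟨0, 0, fun _ => 0, fun h => absurd h hi⟩
  choose a b f hdat using hdata
  have h1 := pst_curves V hV W' C a b f (fun i hi => hC i (hWW hi))
    (by
      intro i hi j hj hij
      obtain ⟨ha, hb, hab, _, _⟩ := hdat i hi
      obtain ⟨ha', hb', hab', _, _⟩ := hdat j hj
      have hdis := hd i (hWW hi) j (hWW hj) hij
      by_contra hc
      push Not at hc
      obtain ⟨h1, h2⟩ := hc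
      rcases le_total (a i) (a j) with h3 | h3
      · have : a j ∈ I i := (hI i (hWW hi)).out ha hb ⟨h3, h1⟩
        exact Set.disjoint_left.mp hdis this ha'
      · have : a i ∈ I j := (hI j (hWW hj)).out ha' hb' ⟨h3, h2⟩
        exact Set.disjoint_left.mp hdis ha this)
    (fun i hi => (hdat i hi).2.2.1) (fun i hi => (hdat i hi).2.2.2.1)
    (fun i hi => (hdat i hi).2.2.2.2) H s hH hs
  have h2 : (∑ i ∈ W, (#(C i) : ℝ)) ≤ ∑ i ∈ W', (#(C i) : ℝ) + #W := by
    have h3 : ∑ i ∈ W, (#(C i) : ℝ) = ∑ i ∈ W', (#(C i) : ℝ) + ∑ i ∈ W with ¬ 2 ≤ #(C i),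
        (#(C i) : ℝ) := by
      rw [hW']
      exact (sum_filter_add_sum_filter_not W _ _).symm
    rw [h3]
    have h4 : ∑ i ∈ W with ¬ 2 ≤ #(C i), (#(C i) : ℝ) ≤ ∑ i ∈ W with ¬ 2 ≤ #(C i), (1 : ℝ) := by
      apply sum_le_sum
      intro i hi
      rw [mem_filter] at hi
      have : #(C i) ≤ 1 := by omega
      exact_mod_cast this
    have h5 : ∑ i ∈ W with ¬ 2 ≤ #(C i), (1 : ℝ) ≤ #W := by
      rw [sum_const, nsmul_eq_mul, mul_one]
      exact_mod_cast card_le_card (filter_subset _ _)
    linarith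
  have h6 : (#W' : ℝ) ≤ #W := by exact_mod_cast card_le_card hWW
  have h7 : (#W' : ℝ) ^ 2 / H ≤ (#W : ℝ) ^ 2 / H := by gcongr
  linarith

end Vale.Agent.P065.UB.H966
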