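import Vale.Agent.P065.UB.H966.S35C

/-!
# P065, upper bound, line P: steps 3, 4, 5 (helper966), assembly

`stS35_of : StDey → StRank → StStrips → StS35`.
-/

set_option autoImplicit false

namespace Vale.Agent.P065.UB.H966

open Finset Vale.Agent.P065.UB Vale.Agent.P065.UB.P Vale.Agent.P065.UB.Win266

theorem sum_Pj (Q : Finset Pt) (f : Pt → ℤ) : ∑ i ∈ Q.image f, #(Pj Q f i) = #Q := by
  classical
  have h := card_eq_sum_card_fiberwise (f := f) (s := Q) (t := Q.image f) (fun p hp => by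
    rw [mem_coe] at hp ⊢
    exact mem_image_of_mem _ hp)
  rw [h]
  refine sum_congr rfl fun i _ => ?_
  unfold Pj
  congr!

open Classical in
/-- **counting of the bad windows** -/
theorem bad (hDey : StDey) (hRank : StRank) : ∃ C : ℝ, 1 ≤ C ∧ ∀ (P : Finset Pt) (k : ℕ)
    (Q : Finset Pt) (W : Finset ℕ) (I : ℕ → Set ℝ) (F : ℕ → Finset (Pt × Pt))
    (M K y z lam : ℝ), Good P → Q ⊆ P → (∀ w ∈ W, (I w).OrdConnected) →
    (∀ w ∈ W, ∀ w' ∈ W, w ≠ w' → Disjoint (I w) (I w')) →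
    0 < M → 1 ≤ K → 0 < y → 0 < z → 0 < lam → 4 * K ≤ z ^ 2 * y →
    (∀ w ∈ W, (#(Tch P k Q (I w)) : ℝ) ≤ K * y ^ 3) →
    (∀ w ∈ W, (#(EdBd P k Q (I w)) : ℝ) ≤ K * y ^ 3) →
    (∀ w ∈ W, F w ⊆ EdIn P k Q (I w)) → (#Q : ℝ) ≤ lam * y ^ 3 →
    (∀ i : ℤ, ∑ w ∈ W, (#{e ∈ F w | col M e.1 = i} : ℝ) ≤ z ^ 10 * (lam ^ 2 * y ^ 4)) →
    (#{w ∈ W | ∃ i ∈ Q.image (col M), z ^ 2 * y ^ 4 < (#{e ∈ F w | col M e.1 = i} : ℝ)} : ℝ) ≤
      z * C * K * lam ^ 2 := by
  obtain ⟨C, hC, hcolumn⟩ := column hDey hRank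
  refine ⟨C, hC, ?_⟩
  intro P k Q W I F M K y z lam hP hQ hIc hId hM hK hy hz hlam hKy ht hV hF hcQ hnc
  set B : ℤ → Finset ℕ := fun i => {w ∈ W | z ^ 2 * y ^ 4 < (#{e ∈ F w | col M e.1 = i} : ℝ)}
    with hB
  have hC0 : 0 < C := by linarith
  have hK0 : 0 < K := by linarith
  have hone : ∀ i : ℤ, (#(B i) : ℝ) * y ^ 3 ≤ z * C * K * lam * #(Pj Q (col M) i) := by
    intro i
    have h1 : (#(B i) : ℝ) * (z ^ 2 * y ^ 4) ≤ z ^ 10 * (lam ^ 2 * y ^ 4) := by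
      refine le_trans ?_ (hnc i)
      calc (#(B i) : ℝ) * (z ^ 2 * y ^ 4) = ∑ w ∈ B i, z ^ 2 * y ^ 4 := by
            rw [sum_const, nsmul_eq_mul]
        _ ≤ ∑ w ∈ B i, (#{e ∈ F w | col M e.1 = i} : ℝ) :=
            sum_le_sum fun w hw => (mem_filter.1 hw).2.le
        _ ≤ _ := sum_le_sum_of_subset_of_nonneg (filter_subset _ _)
            (fun _ _ _ => Nat.cast_nonneg _)
    have h2 : (#(B i) : ℝ) ≤ z ^ 8 * lam ^ 2 := by
      have a1 : (#(B i) : ℝ) * (z ^ 2 * y ^ 4) ≤ (z ^ 8 * lam ^ 2) * (z ^ 2 * y ^ 4) := by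
        calc _ ≤ _ := h1
          _ = _ := by ring
      exact le_of_mul_le_mul_right a1 (by positivity)
    have h3 : (#(B i) : ℝ) * (z ^ 6 * y ^ 6) ≤ C * K ^ 2 * (#(Pj Q (col M) i) : ℝ) ^ 2 := by
      have a1 : ∀ w ∈ B i, z ^ 6 * y ^ 6 ≤ C * K ^ 2 * #(Sw (Pj Q (col M) i) (I w)) := by
        intro w hw
        obtain ⟨hw1, hw2⟩ := mem_filter.1 hw
        have := hcolumn P k Q (I w) M i K y (z ^ 2) ({e ∈ F w | col M e.1 = i}) hP hQ (hIc w hw1)
          hM hK hy (by positivity) hKy (ht w hw1) (hV w hw1)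
          ((filter_subset _ _).trans (hF w hw1)) (fun e he => (mem_filter.1 he).2) hw2.le
        calc z ^ 6 * y ^ 6 = (z ^ 2) ^ 3 * y ^ 6 := by ring
          _ ≤ _ := this
      calc (#(B i) : ℝ) * (z ^ 6 * y ^ 6) = ∑ w ∈ B i, z ^ 6 * y ^ 6 := by
            rw [sum_const, nsmul_eq_mul]
        _ ≤ ∑ w ∈ B i, C * K ^ 2 * (#(Sw (Pj Q (col M) i) (I w)) : ℝ) := sum_le_sum a1
        _ = C * K ^ 2 * ((∑ w ∈ B i, #(Sw (Pj Q (col M) i) (I w)) : ℕ) : ℝ) := by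
            rw [← mul_sum]; push_cast; rfl
        _ ≤ _ := by
            apply mul_le_mul_of_nonneg_left _ (by positivity)
            exact_mod_cast H616.sum_Sw_le (B i) I (fun w hw w' hw' hne =>
              hId w (mem_filter.1 hw).1 w' (mem_filter.1 hw').1 hne) (Pj Q (col M) i)
    have h4 : ((#(B i) : ℝ) * y ^ 3) ^ 2 ≤ (z * C * K * lam * #(Pj Q (col M) i)) ^ 2 := by
      have a1 : (((#(B i) : ℝ) * y ^ 3) ^ 2) * z ^ 6 ≤
          ((z * C * K * lam * #(Pj Q (col M) i)) ^ 2) * z ^ 6 := by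
        calc (((#(B i) : ℝ) * y ^ 3) ^ 2) * z ^ 6
            = (#(B i) : ℝ) * ((#(B i) : ℝ) * (z ^ 6 * y ^ 6)) := by ring
          _ ≤ (z ^ 8 * lam ^ 2) * (C * K ^ 2 * (#(Pj Q (col M) i) : ℝ) ^ 2) :=
              mul_le_mul h2 h3 (by positivity) (by positivity)
          _ = (z ^ 2 * 1 * C * K ^ 2 * lam ^ 2 * (#(Pj Q (col M) i) : ℝ) ^ 2) * z ^ 6 := by ring
          _ ≤ (z ^ 2 * C * C * K ^ 2 * lam ^ 2 * (#(Pj Q (col M) i) : ℝ) ^ 2) * z ^ 6 := by
              gcongr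
          _ = _ := by ring
      exact le_of_mul_le_mul_right a1 (by positivity)
    exact le_of_pow_le_pow_left₀ (by norm_num) (by positivity) h4
  have hbad : ({w ∈ W | ∃ i ∈ Q.image (col M), z ^ 2 * y ^ 4 <
      (#{e ∈ F w | col M e.1 = i} : ℝ)} : Finset ℕ) ⊆ (Q.image (col M)).biUnion B := by
    intro w hw
    obtain ⟨h1, i, h2, h3⟩ := mem_filter.1 hw
    exact mem_biUnion.2 ⟨i, h2, mem_filter.2 ⟨h1, h3⟩⟩
  have h1 : (#{w ∈ W | ∃ i ∈ Q.image (col M), z ^ 2 * y ^ 4 <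
      (#{e ∈ F w | col M e.1 = i} : ℝ)} : ℝ) ≤ ∑ i ∈ Q.image (col M), (#(B i) : ℝ) := by
    exact_mod_cast (card_le_card hbad).trans card_biUnion_le
  have h2 : (∑ i ∈ Q.image (col M), (#(B i) : ℝ)) * y ^ 3 ≤ (z * C * K * lam ^ 2) * y ^ 3 := by
    rw [sum_mul]
    calc ∑ i ∈ Q.image (col M), (#(B i) : ℝ) * y ^ 3
        ≤ ∑ i ∈ Q.image (col M), z * C * K * lam * #(Pj Q (col M) i) :=
          sum_le_sum fun i _ => hone i
      _ = z * C * K * lam * ((∑ i ∈ Q.image (col M), #(Pj Q (col M) i) : ℕ) : ℝ) := by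
          rw [← mul_sum]; push_cast; rfl
      _ = z * C * K * lam * #Q := by rw [sum_Pj]
      _ ≤ z * C * K * lam * (lam * y ^ 3) := mul_le_mul_of_nonneg_left hcQ (by positivity)
      _ = _ := by ring
  exact h1.trans (le_of_mul_le_mul_right h2 (by positivity))

theorem ix_eq {a h : ℝ} (hh : 0 < h) {p : Pt} {j : ℤ} (H : ix a h p = j) :
    h * j ≤ ht a p ∧ ht a p ≤ h * j + h := by
  unfold ix at H
  rw [Int.floor_eq_iff, le_div_iff₀ hh, div_lt_iff₀ hh] at H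
  constructor
  · linarith [H.1]
  · linarith [H.2]

theorem exists_two_pow (x : ℝ) : ∃ m : ℕ, x ≤ 2 ^ m := by
  obtain ⟨m, hm⟩ := pow_unbounded_of_one_lt x (show (1 : ℝ) < 2 by norm_num)
  exact ⟨m, hm.le⟩

/-- **S35** -/
theorem stS35_of (hDey : StDey) (hRank : StRank) (hStrips : StStrips) : StS35 := by
  classical
  obtain ⟨CA, hCA, hstrip⟩ := strip hDey hStrips
  obtain ⟨CB, hCB, hbad⟩ := bad hDey hRank
  obtain ⟨m, hm⟩ := exists_two_pow (max (max CA CB) (1696 ^ 3))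
  have hmA : CA ≤ 2 ^ m := (le_max_left _ _).trans ((le_max_left _ _).trans hm)
  have hmB : CB ≤ 2 ^ m := (le_max_right _ _).trans ((le_max_left _ _).trans hm)
  have hmC : (1696 : ℝ) ^ 3 ≤ 2 ^ m := (le_max_right _ _).trans hm
  refine ⟨4 * m + 60, by omega, fun c => ⟨10 * ((4 * m + 60) * c + 4 * m + 60), ?_⟩⟩
  set r : ℕ := 4 * m + 60 with hr
  intro K kp Kp ks Kpp L lam N del P k Q W a b hH hN
  obtain ⟨hK, hkp0, hkp1, hKp1, hks0, hks1, hKpp1, hL, hlam, hNl⟩ := hH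
  set c' : ℕ := 10 * (r * c + 4 * m + 60) with hc'
  have hK1 : 1 ≤ K := by linarith
  have hK0 : 0 < K := by linarith
  have hpow : ∀ {s t : ℕ}, s ≤ t → K ^ s ≤ K ^ t := fun h => pow_le_pow_right₀ hK1 h
  have h2K : ∀ s : ℕ, (2 : ℝ) ^ s ≤ K ^ s := fun s => pow_le_pow_left₀ (by norm_num) hK s
  have hKm : ∀ {x : ℝ}, x ≤ 2 ^ m → x ≤ K ^ m := fun h => h.trans (h2K m)
  -- sizes
  have hKp0 : 0 < Kp := by
    by_contra hcon
    push Not at hcon
    have : kp * Kp ≤ 0 := mul_nonpos_of_nonneg_of_nonpos hkp0.le hcon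
    linarith
  have hKpK : K ^ c' ≤ Kp := by
    have h1 : kp * K ^ c' ≤ kp * Kp := by linarith
    exact le_of_mul_le_mul_left h1 hkp0
  have hKp1' : 1 ≤ Kp := (one_le_pow₀ hK1).trans hKpK
  have hKpp0 : 0 < Kpp := by
    by_contra hcon
    push Not at hcon
    have : ks * Kpp ≤ 0 := mul_nonpos_of_nonneg_of_nonpos hks0.le hcon
    linarith
  have hKppK : Kp ^ c' ≤ Kpp := by
    have h1 : ks * Kp ^ c' ≤ ks * Kpp := by linarith
    exact le_of_mul_le_mul_left h1 hks0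
  have hKpp1' : 1 ≤ Kpp := (one_le_pow₀ hKp1').trans hKppK
  have hL1 : Kpp ≤ L := by
    calc Kpp = Kpp ^ 1 := (pow_one _).symm
      _ ≤ Kpp ^ c' := pow_le_pow_right₀ hKpp1' (by omega)
      _ ≤ L := hL
  have hL1' : 1 ≤ L := hKpp1'.trans hL1
  have hlam1 : L ≤ lam := by
    calc L = L ^ 1 := (pow_one _).symm
      _ ≤ L ^ c' := pow_le_pow_right₀ hL1' (by omega)
      _ ≤ lam := hlam
  have hlamKp : Kp ^ 3 ≤ lam := by
    calc Kp ^ 3 ≤ Kp ^ c' := pow_le_pow_right₀ hKp1' (by omega)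
      _ ≤ Kpp := hKppK
      _ ≤ L := hL1
      _ ≤ lam := hlam1
  have hlam1' : 1 ≤ lam := (one_le_pow₀ hKp1').trans hlamKp
  have hlam0 : 0 < lam := by linarith
  have hN0 : 0 < N := lt_of_lt_of_le (by positivity) hNl
  -- `y` and `z`
  set y : ℝ := (N / lam) ^ (1 / 3 : ℝ) with hydef
  have hNl0 : 0 < N / lam := by positivity
  have hy0 : 0 < y := Real.rpow_pos_of_pos hNl0 _
  have hy3 : y ^ 3 = N / lam := cbrt_pow hNl0.le
  have hyN : lam * y ^ 3 = N := by rw [hy3]; field_simp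
  have hy4 : (N / lam) ^ (4 / 3 : ℝ) = y ^ 4 := by
    rw [hydef, ← Real.rpow_natCast, ← Real.rpow_mul hNl0.le]
    norm_num
  have hylam : lam ≤ y := by
    have h1 : lam ^ 3 ≤ y ^ 3 := by
      rw [hy3, le_div_iff₀ hlam0]
      calc lam ^ 3 * lam = lam ^ 4 * 1 := by ring
        _ ≤ lam ^ 4 * lam := by gcongr
        _ = lam ^ 5 := by ring
        _ ≤ N := hNl
    exact le_of_pow_le_pow_left₀ (by norm_num) hy0.le h1
  set z : ℝ := kp ^ (1 / 10 : ℝ) with hzdef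
  have hz0 : 0 < z := Real.rpow_pos_of_pos hkp0 _
  have hz10 : z ^ 10 = kp := by
    rw [hzdef, ← Real.rpow_natCast, ← Real.rpow_mul hkp0.le]
    norm_num
  have hzK : ∀ s : ℕ, s ≤ r * c + 4 * m + 60 → K ^ s * z ≤ 1 := by
    intro s hs
    have h1 : (K ^ s * z) ^ 10 ≤ 1 ^ 10 := by
      calc (K ^ s * z) ^ 10 = K ^ (10 * s) * z ^ 10 := by rw [mul_pow, ← pow_mul]; ring_nf
        _ = K ^ (10 * s) * kp := by rw [hz10]
        _ ≤ K ^ c' * kp := mul_le_mul_of_nonneg_right (hpow (by omega)) hkp0.le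
        _ ≤ 1 ^ 10 := by rw [one_pow]; exact hkp1
    exact le_of_pow_le_pow_left₀ (by norm_num) (by norm_num) h1
  have hz1 : z ≤ 1 := by
    have := hzK 0 (by omega)
    linarith [this, show K ^ 0 * z = z by ring]
  have hzKp : 1 ≤ z * Kp := by
    have h1 : kp ≤ z := by
      rw [← hz10]
      calc z ^ 10 ≤ z ^ 1 := pow_le_pow_of_le_one hz0.le hz1 (by norm_num)
        _ = z := pow_one z
    calc (1 : ℝ) ≤ kp * Kp := hKp1
      _ ≤ z * Kp := mul_le_mul_of_nonneg_right h1 hKp0.le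
  have hyKp : Kp ^ 3 ≤ y := hlamKp.trans hylam
  have hKs : ∀ s : ℕ, s ≤ 10 * (4 * m + 60) → K ^ s ≤ Kp := by
    intro s hs
    exact (hpow (by omega)).trans hKpK
  -- `z ^ 2 * y` is large
  have hz2y : Kp ≤ z ^ 2 * y := by
    calc Kp = 1 * 1 * Kp := by ring
      _ ≤ (z * Kp) * (z * Kp) * Kp := by gcongr
      _ = z ^ 2 * Kp ^ 3 := by ring
      _ ≤ z ^ 2 * y := mul_le_mul_of_nonneg_left hyKp (by positivity)
  have hzy : Kp ≤ z * y := by
    refine hz2y.trans ?_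
    have : z ^ 2 ≤ z := by
      calc z ^ 2 ≤ z ^ 1 := pow_le_pow_of_le_one hz0.le hz1 (by norm_num)
        _ = z := pow_one z
    exact mul_le_mul_of_nonneg_right this hy0.le
  have hyKp1 : Kp ≤ y := by
    calc Kp = Kp ^ 1 := (pow_one _).symm
      _ ≤ Kp ^ 3 := pow_le_pow_right₀ hKp1' (by norm_num)
      _ ≤ y := hyKp
  have k4 : (4 : ℝ) ≤ K ^ 2 := by
    calc (4 : ℝ) = 2 ^ 2 := by norm_num
      _ ≤ K ^ 2 := h2K 2
  have k8 : (8 : ℝ) ≤ K ^ 3 := by
    calc (8 : ℝ) = 2 ^ 3 := by norm_num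
      _ ≤ K ^ 3 := h2K 3
  have k16 : (16 : ℝ) ≤ K ^ 4 := by
    calc (16 : ℝ) = 2 ^ 4 := by norm_num
      _ ≤ K ^ 4 := h2K 4
  have k1696 : (1696 : ℝ) ≤ K ^ 11 := by
    calc (1696 : ℝ) ≤ 2 ^ 11 := by norm_num
      _ ≤ K ^ 11 := h2K 11
  -- windows
  have ht : ∀ w ∈ W, (#(Tch P k Q (Set.Icc (a w) (b w))) : ℝ) ≤ K * y ^ 3 := by
    intro w hw
    have h1 := hN.tch w hw
    have h2 : lam * (#(Tch P k Q (Set.Icc (a w) (b w))) : ℝ) ≤ lam * (K * y ^ 3) := by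
      calc _ ≤ K * N := h1
        _ = _ := by rw [← hyN]; ring
    exact le_of_mul_le_mul_left h2 hlam0
  have hV : ∀ w ∈ W, (#(EdBd P k Q (Set.Icc (a w) (b w))) : ℝ) ≤ K * y ^ 3 := by
    intro w hw
    have h1 := hN.bd w hw
    have h2 : lam * (#(EdBd P k Q (Set.Icc (a w) (b w))) : ℝ) ≤ lam * (K * y ^ 3) := by
      calc _ ≤ K * N := h1
        _ = _ := by rw [← hyN]; ring
    exact le_of_mul_le_mul_left h2 hlam0
  have hIc : ∀ w ∈ W, (Set.Icc (a w) (b w)).OrdConnected := fun _ _ => Set.ordConnected_Icc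
  have hId : ∀ w ∈ W, ∀ w' ∈ W, w ≠ w' →
      Disjoint (Set.Icc (a w) (b w)) (Set.Icc (a w') (b w')) := by
    intro w hw w' hw' hne
    rw [Set.disjoint_left]
    rintro s ⟨h1, h2⟩ ⟨h3, h4⟩
    rcases hN.disj w hw w' hw' hne with h | h <;> linarith
  -- the strips
  have hstr : ∀ w, ∃ j : ℤ, w ∈ W → y ^ 4 ≤ CA * K ^ 8 *
      #(EdIn P k (Pj Q (ix (a w) (2 * del)) j) (Set.Icc (a w) (b w))) := by
    intro w
    by_cases hw : w ∈ W
    · obtain ⟨j, hj⟩ := hstrip P k Q (a w) (b w) del K y hN.good hN.sub hN.box hN.del0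
        (hN.len w hw).2 hK1 hy0 (by
          calc 8 * K ^ 2 ≤ K ^ 3 * K ^ 2 := mul_le_mul_of_nonneg_right k8 (by positivity)
            _ = K ^ 5 := by ring
            _ ≤ Kp := hKs 5 (by omega)
            _ ≤ y := hyKp1) (ht w hw) (hV w hw) (by rw [← hy4]; exact hN.ed w hw)
      exact ⟨j, fun _ => hj⟩
    · exact ⟨0, fun h => (hw h).elim⟩
  choose j hj using hstr
  set S : ℕ → Finset Pt := fun w => Pj Q (ix (a w) (2 * del)) (j w) with hS
  set F : ℕ → Finset (Pt × Pt) := fun w => EdIn P k (S w) (Set.Icc (a w) (b w)) with hF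
  have hSQ : ∀ w, S w ⊆ Q := fun w => Pj_sub _ _ _
  have hFE : ∀ w, F w ⊆ EdIn P k Q (Set.Icc (a w) (b w)) := fun w => EdIn_mono (hSQ w)
  -- the bad windows
  have hb := hbad P k Q W (fun w => Set.Icc (a w) (b w)) F Kp K y z lam hN.good hN.sub hIc hId
    hKp0 hK1 hy0 hz0 hlam0 (by
      calc 4 * K ≤ K ^ 2 * K := mul_le_mul_of_nonneg_right k4 hK0.le
        _ = K ^ 3 := by ring
        _ ≤ Kp := hKs 3 (by omega)
        _ ≤ z ^ 2 * y := hz2y) ht hV (fun w _ => hFE w) (by rw [hyN]; exact hN.cardQ) (by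
      intro i
      refine le_trans ?_ ((hN.ncU ((i : ℝ) / Kp)).trans (le_of_eq (by rw [hz10, hy4])))
      refine sum_le_sum fun w _ => ?_
      have : ({e ∈ F w | col Kp e.1 = i} : Finset (Pt × Pt)) ⊆
          ({e ∈ EW P k Q a b w | (i : ℝ) / Kp ≤ e.1.1 ∧ e.1.1 ≤ (i : ℝ) / Kp + 1 / Kp} :
            Finset (Pt × Pt)) := by
        intro e he
        rw [mem_filter] at he ⊢
        have h1 := (col_eq hKp0).1 he.2
        refine ⟨hFE w he.1, h1.1, ?_⟩
        have h2 : ((i : ℝ) + 1) / Kp = (i : ℝ) / Kp + 1 / Kp := by ring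
        linarith [h1.2]
      exact_mod_cast card_le_card this)
  set Bd : Finset ℕ := {w ∈ W | ∃ i ∈ Q.image (col Kp), z ^ 2 * y ^ 4 <
    (#{e ∈ F w | col Kp e.1 = i} : ℝ)} with hBd
  set W' : Finset ℕ := W \ Bd with hW'
  have hW'W : W' ⊆ W := sdiff_subset
  -- few bad windows
  have hbd2 : 2 * K * (#Bd : ℝ) ≤ lam ^ 2 := by
    calc 2 * K * (#Bd : ℝ) ≤ 2 * K * (z * CB * K * lam ^ 2) :=
          mul_le_mul_of_nonneg_left hb (by positivity)
      _ = (2 * CB * K ^ 2 * z) * lam ^ 2 := by ring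
      _ ≤ (K * K ^ m * K ^ 2 * z) * lam ^ 2 := by
          have := hKm hmB
          gcongr
      _ = (K ^ (m + 3) * z) * lam ^ 2 := by ring
      _ ≤ 1 * lam ^ 2 := mul_le_mul_of_nonneg_right (hzK (m + 3) (by omega)) (by positivity)
      _ = lam ^ 2 := one_mul _
  have hcardW' : lam ^ 2 ≤ 2 * K * (#W' : ℝ) := by
    have h1 : (#W : ℝ) ≤ #W' + #Bd := by
      have : #W ≤ #W' + #Bd := by
        have h0 : W ⊆ W' ∪ Bd := by
          intro w hw
          rw [mem_union, hW', mem_sdiff]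
          by_cases h : w ∈ Bd
          · right; exact h
          · left; exact ⟨hw, h⟩
        exact (card_le_card h0).trans (card_union_le _ _)
      exact_mod_cast this
    have h2 := hN.cardW'
    have h3 : K * (#W : ℝ) ≤ K * (#W' + #Bd) := mul_le_mul_of_nonneg_left h1 hK0.le
    have h4 : K * ((#W' : ℝ) + #Bd) = K * #W' + K * #Bd := by ring
    linarith
  -- trimming
  set D : ℝ := CA * K ^ 8 with hD
  have hD1 : 1 ≤ D := by
    have : (1 : ℝ) ≤ K ^ 8 := one_le_pow₀ hK1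
    calc (1 : ℝ) = 1 * 1 := by ring
      _ ≤ CA * K ^ 8 := mul_le_mul hCA this (by norm_num) (by linarith)
  have hDK : D ≤ K ^ (m + 8) := by
    calc D ≤ K ^ m * K ^ 8 := mul_le_mul_of_nonneg_right (hKm hmA) (by positivity)
      _ = K ^ (m + 8) := by rw [pow_add]
  have htr : ∀ w, ∃ T : Finset Pt, w ∈ W' → T ⊆ Tch P k (S w) (Set.Icc (a w) (b w)) ∧
      ∀ A : Finset (Pt × Pt),
      (∀ e, e ∈ A ↔ e ∈ EdIn P k Q (Set.Icc (a w) (b w)) ∧ e.1 ∈ T ∧ e.2 ∈ T) →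
      y ^ 4 ≤ 2 * D * #A ∧ y ^ 3 ≤ 1696 ^ 3 * D ^ 3 * K ^ 9 * #T ∧
      (∀ x : ℝ, ∀ X ⊆ T, (∀ p ∈ X, x ≤ p.1 ∧ p.1 ≤ x + 1 / Kp) → (#X : ℝ) ≤ z * y ^ 3) ∧
      (∀ x : ℝ, ∀ X ⊆ A, (∀ e ∈ X, x ≤ e.1.1 ∧ e.1.1 ≤ x + 1 / Kp) → (#X : ℝ) ≤ z * y ^ 4) := by
    intro w
    by_cases hw : w ∈ W'
    · have hwW := hW'W hw
      have hwB : w ∉ Bd := (mem_sdiff.1 hw).2
      obtain ⟨T, hT, hT'⟩ := trim (P := P) (k := k) (Q := Q) (S := S w)
        (I := Set.Icc (a w) (b w)) (M := Kp) (K := K) (D := D) (y := y) (z := z) hN.good hN.sub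
        (hSQ w) (hIc w hwW) hKp0 hK1 hD1 hy0 hz0 (by
          calc 8 * K * D * z ≤ K ^ 3 * K * K ^ (m + 8) * z := by gcongr
            _ = K ^ (m + 12) * z := by ring
            _ ≤ 1 := hzK _ (by omega)) (by
          calc 16 * K ^ 2 * D ≤ K ^ 4 * K ^ 2 * K ^ (m + 8) := by gcongr
            _ = K ^ (m + 14) := by ring
            _ ≤ Kp := hKs _ (by omega)
            _ ≤ z * y := hzy) (by
          calc 1696 * D * K ^ 3 ≤ K ^ 11 * K ^ (m + 8) * K ^ 3 := by gcongr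
            _ = K ^ (m + 22) := by ring
            _ ≤ Kp := hKs _ (by omega)
            _ ≤ y := hyKp1) (ht w hwW) (hV w hwW) (by
          intro i A hA hAi
          by_cases hi : i ∈ Q.image (col Kp)
          · have h1 : ¬ (z ^ 2 * y ^ 4 < (#{e ∈ F w | col Kp e.1 = i} : ℝ)) :=
              fun h => hwB (mem_filter.2 ⟨hwW, i, hi, h⟩)
            push Not at h1
            refine le_trans ?_ h1
            have : A ⊆ ({e ∈ F w | col Kp e.1 = i} : Finset (Pt × Pt)) :=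
              fun e he => mem_filter.2 ⟨hA he, hAi e he⟩
            exact_mod_cast card_le_card this
          · have h1 : A = ∅ := by
              apply Finset.eq_empty_of_forall_notMem
              intro e he
              apply hi
              have h2 : e.1 ∈ S w := (mem_EdIn.1 (hA he)).2.1
              exact mem_image.2 ⟨e.1, hSQ w h2, hAi e he⟩
            rw [h1, card_empty, Nat.cast_zero]
            positivity) (hj w hwW)
      exact ⟨T, fun _ => ⟨hT, hT'⟩⟩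
    · exact ⟨∅, fun h => (hw h).elim⟩
  choose T hT using htr
  have hAmem : ∀ w, ∀ e, e ∈ ET P k Q a b T w ↔
      e ∈ EdIn P k Q (Set.Icc (a w) (b w)) ∧ e.1 ∈ T w ∧ e.2 ∈ T w := by
    intro w e
    unfold ET EW
    rw [mem_filter]
  have hrK : K ≤ K ^ r := by
    calc K = K ^ 1 := (pow_one _).symm
      _ ≤ K ^ r := hpow (by omega)
  have hKr0 : 0 < K ^ r := by positivity
  refine ⟨z, W', fun w => 2 * del * j w, T, hz0, ?_, hzKp, hW'W, ?_⟩
  · rw [← pow_mul]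
    exact hzK _ (by omega)
  · refine ⟨hN.good, hN.sub, hN.box, hN.del0, fun w hw => hN.len w (hW'W hw),
      fun w hw => hN.unit w (hW'W hw), fun w hw w' hw' => hN.disj w (hW'W hw) w' (hW'W hw'),
      hN.cardQ, ?_, ?_, ?_, ?_, ?_, ?_, ?_, ?_, ?_, ?_, ?_, ?_⟩
    · -- cardW
      have h1 : (#W' : ℝ) ≤ #W := by exact_mod_cast card_le_card hW'W
      calc (#W' : ℝ) ≤ K * lam ^ 2 := h1.trans hN.cardW
        _ ≤ K ^ r * lam ^ 2 := mul_le_mul_of_nonneg_right hrK (by positivity)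
    · -- cardW'
      refine hcardW'.trans (mul_le_mul_of_nonneg_right ?_ (Nat.cast_nonneg _))
      calc 2 * K ≤ K * K := mul_le_mul_of_nonneg_right hK hK0.le
        _ = K ^ 2 := by ring
        _ ≤ K ^ r := hpow (by omega)
    · intro w hw
      exact (hN.tch w (hW'W hw)).trans (mul_le_mul_of_nonneg_right hrK hN0.le)
    · intro w hw
      exact (hN.bd w (hW'W hw)).trans (mul_le_mul_of_nonneg_right hrK hN0.le)
    · exact hN.glob.trans (mul_le_mul_of_nonneg_right hrK (by positivity))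
    · -- ncT
      intro x
      refine le_trans ?_ (hN.ncT x)
      have : ({w ∈ W' | x ≤ a w ∧ a w ≤ x + 1 / Kpp} : Finset ℕ) ⊆
          ({w ∈ W | x ≤ a w ∧ a w ≤ x + 1 / Kpp} : Finset ℕ) := by
        intro w hw
        rw [mem_filter] at hw ⊢
        exact ⟨hW'W hw.1, hw.2⟩
      exact_mod_cast card_le_card this
    · intro w hw
      exact (hT w hw).1.trans (Tch_mono (hSQ w))
    · -- tube
      intro w hw p hp
      have h1 := (mem_Tch'.1 ((hT w hw).1 hp)).1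
      have h2 := (mem_Pj.1 h1).2
      have h3 := ix_eq (by linarith [hN.del0] : 0 < 2 * del) h2
      exact h3
    · -- cardT'
      intro w hw
      have h1 := ((hT w hw).2 _ (hAmem w)).2.1
      calc N = lam * y ^ 3 := hyN.symm
        _ ≤ lam * (1696 ^ 3 * D ^ 3 * K ^ 9 * #(T w)) := mul_le_mul_of_nonneg_left h1 hlam0.le
        _ ≤ lam * (K ^ m * (K ^ (m + 8)) ^ 3 * K ^ 9 * #(T w)) := by
            have := hKm hmC
            gcongr
        _ = K ^ (4 * m + 33) * (lam * #(T w)) := by ring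
        _ ≤ K ^ r * (lam * #(T w)) := by
            have := hpow (show 4 * m + 33 ≤ r by omega)
            gcongr
    · -- edT
      intro w hw
      have h1 := ((hT w hw).2 _ (hAmem w)).1
      rw [hy4]
      calc y ^ 4 ≤ 2 * D * #(ET P k Q a b T w) := h1
        _ ≤ K * K ^ (m + 8) * #(ET P k Q a b T w) := by gcongr
        _ = K ^ (m + 9) * #(ET P k Q a b T w) := by ring
        _ ≤ K ^ r * #(ET P k Q a b T w) := by
            have := hpow (show m + 9 ≤ r by omega)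
            gcongr
    · -- spT
      intro w hw x
      have h1 := ((hT w hw).2 _ (hAmem w)).2.2.1 x _ (filter_subset _ _)
        (fun p hp => (mem_filter.1 hp).2)
      calc _ ≤ lam * (z * y ^ 3) := mul_le_mul_of_nonneg_left h1 hlam0.le
        _ = z * N := by rw [← hyN]; ring
    · -- spE
      intro w hw x
      rw [hy4]
      exact ((hT w hw).2 _ (hAmem w)).2.2.2 x _ (filter_subset _ _)
        (fun p hp => (mem_filter.1 hp).2)

end Vale.Agent.P065.UB.H966
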