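import Vale.Agent.P065.UB.P.Defs
import Vale.Agent.P065.UB.H616.Star
import Vale.Agent.P065.UB.WLov
import Vale.Agent.P065.U.H792.DeyY

/-!
# P065, upper bound, line P: steps 3, 4, 5 (helper966), part A

The strip of a window with many edges (`strip`) and the inequality for a column (`column`).
-/

set_option autoImplicit false

namespace Vale.Agent.P065.UB.H966

open Finset Vale.Agent.P065.UB Vale.Agent.P065.UB.P Vale.Agent.P065.UB.Win266

/-! ### powers -/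

theorem cube_dey {C t V E : ℝ} (ht : 0 ≤ t) (hV : 0 ≤ V) (hE : 0 ≤ E)
    (h : E ≤ C * (t * (t + V)) ^ (2 / 3 : ℝ)) : E ^ 3 ≤ C ^ 3 * (t * (t + V)) ^ 2 := by
  calc E ^ 3 ≤ (C * (t * (t + V)) ^ (2 / 3 : ℝ)) ^ 3 := pow_le_pow_left₀ hE h 3
    _ = C ^ 3 * (t * (t + V)) ^ 2 := by
      rw [mul_pow, ← Real.rpow_natCast ((t * (t + V)) ^ (2 / 3 : ℝ)),
        ← Real.rpow_mul (by positivity)]
      norm_num

/-! ### partitions of `Q` -/

open Classical in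
/-- the part of `Q` with index `j` -/
noncomputable def Pj (Q : Finset Pt) (f : Pt → ℤ) (j : ℤ) : Finset Pt := {p ∈ Q | f p = j}

open Classical in
/-- the edges which join two different parts -/
noncomputable def Cr (P : Finset Pt) (k : ℕ) (Q : Finset Pt) (I : Set ℝ) (f : Pt → ℤ) :
    Finset (Pt × Pt) := {e ∈ EdIn P k Q I | f e.1 ≠ f e.2}

theorem mem_Pj {Q : Finset Pt} {f : Pt → ℤ} {j : ℤ} {p : Pt} :
    p ∈ Pj Q f j ↔ p ∈ Q ∧ f p = j := by
  classical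
  unfold Pj
  rw [mem_filter]

theorem mem_Cr {P : Finset Pt} {k : ℕ} {Q : Finset Pt} {I : Set ℝ} {f : Pt → ℤ} {e : Pt × Pt} :
    e ∈ Cr P k Q I f ↔ e ∈ EdIn P k Q I ∧ f e.1 ≠ f e.2 := by
  classical
  unfold Cr
  rw [mem_filter]

theorem mem_Tch' {P : Finset Pt} {k : ℕ} {Q : Finset Pt} {I : Set ℝ} {v : Pt} :
    v ∈ Tch P k Q I ↔ v ∈ Q ∧ ∃ e ∈ EdIn P k Q I, e.1 = v ∨ e.2 = v := by
  classical
  unfold Tch
  rw [mem_filter]

theorem Pj_sub (Q : Finset Pt) (f : Pt → ℤ) (j : ℤ) : Pj Q f j ⊆ Q := fun _ h => (mem_Pj.1 h).1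

theorem EdIn_mono {P : Finset Pt} {k : ℕ} {Q Q' : Finset Pt} {I : Set ℝ} (h : Q' ⊆ Q) :
    EdIn P k Q' I ⊆ EdIn P k Q I := by
  intro e he
  rw [mem_EdIn] at he ⊢
  exact ⟨he.1, h he.2.1, h he.2.2.1, he.2.2.2⟩

theorem Tch_mono {P : Finset Pt} {k : ℕ} {Q Q' : Finset Pt} {I : Set ℝ} (h : Q' ⊆ Q) :
    Tch P k Q' I ⊆ Tch P k Q I := by
  intro v hv
  rw [mem_Tch'] at hv ⊢
  obtain ⟨h1, e, he, h2⟩ := hv
  exact ⟨h h1, e, EdIn_mono h he, h2⟩

theorem sum_EdIn (P : Finset Pt) (k : ℕ) (Q : Finset Pt) (I : Set ℝ) (f : Pt → ℤ) :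
    #(EdIn P k Q I) ≤ ∑ j ∈ Q.image f, #(EdIn P k (Pj Q f j) I) + #(Cr P k Q I f) := by
  classical
  have h1 : EdIn P k Q I ⊆ (Q.image f).biUnion (fun j => EdIn P k (Pj Q f j) I) ∪ Cr P k Q I f := by
    intro e he
    rw [mem_union, mem_biUnion, mem_Cr]
    by_cases h : f e.1 = f e.2
    · left
      have he' := mem_EdIn.1 he
      refine ⟨f e.1, mem_image_of_mem f he'.2.1, mem_EdIn.2 ⟨he'.1, ?_, ?_, he'.2.2.2⟩⟩
      · exact mem_Pj.2 ⟨he'.2.1, rfl⟩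
      · exact mem_Pj.2 ⟨he'.2.2.1, h.symm⟩
    · right; exact ⟨he, h⟩
  exact (card_le_card h1).trans ((card_union_le _ _).trans
    (Nat.add_le_add_right card_biUnion_le _))

theorem sum_Tch (P : Finset Pt) (k : ℕ) (Q : Finset Pt) (I : Set ℝ) (f : Pt → ℤ) :
    ∑ j ∈ Q.image f, #(Tch P k (Pj Q f j) I) ≤ #(Tch P k Q I) := by
  classical
  rw [← card_biUnion]
  · refine card_le_card fun v hv => ?_
    rw [mem_biUnion] at hv
    obtain ⟨j, _, hv⟩ := hv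
    exact Tch_mono (Pj_sub Q f j) hv
  · intro i _ j _ hij
    rw [Function.onFun, disjoint_left]
    intro v h1 h2
    exact hij ((mem_Pj.1 (mem_Tch'.1 h1).1).2.symm.trans (mem_Pj.1 (mem_Tch'.1 h2).1).2)

theorem sum_EdBd (P : Finset Pt) (k : ℕ) (Q : Finset Pt) (I : Set ℝ) (f : Pt → ℤ) :
    ∑ j ∈ Q.image f, #(EdBd P k (Pj Q f j) I) ≤ #(EdBd P k Q I) + 2 * #(Cr P k Q I f) := by
  classical
  set g : Pt × Pt → ℤ := fun e => if e.1 ∈ Q then f e.1 else f e.2 with hg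
  have h1 : ∀ j ∈ Q.image f, #(EdBd P k (Pj Q f j) I) ≤
      #{e ∈ EdBd P k Q I | g e = j} +
        (#{e ∈ Cr P k Q I f | f e.1 = j} + #{e ∈ Cr P k Q I f | f e.2 = j}) := by
    intro j _
    have : EdBd P k (Pj Q f j) I ⊆ ({e ∈ EdBd P k Q I | g e = j} : Finset (Pt × Pt)) ∪
        (({e ∈ Cr P k Q I f | f e.1 = j} : Finset (Pt × Pt)) ∪
          ({e ∈ Cr P k Q I f | f e.2 = j} : Finset (Pt × Pt))) := by
      intro e he
      rw [mem_EdBd] at he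
      obtain ⟨he1, he2, he3⟩ := he
      rw [mem_union, mem_union, mem_filter, mem_filter, mem_filter, mem_EdBd, mem_Cr, mem_EdIn]
      rcases he2 with ⟨h, h'⟩ | ⟨h, h'⟩
      · rw [mem_Pj] at h
        by_cases hq : e.2 ∈ Q
        · right; left
          refine ⟨⟨⟨he1, h.1, hq, he3⟩, fun hh => h' ?_⟩, h.2⟩
          rw [mem_Pj]
          exact ⟨hq, by rw [← hh]; exact h.2⟩
        · left
          exact ⟨⟨he1, Or.inl ⟨h.1, hq⟩, he3⟩, by simp only [hg, h.1, if_true]; exact h.2⟩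
      · rw [mem_Pj] at h'
        by_cases hq : e.1 ∈ Q
        · right; right
          refine ⟨⟨⟨he1, hq, h'.1, he3⟩, fun hh => h ?_⟩, h'.2⟩
          rw [mem_Pj]
          exact ⟨hq, by rw [hh]; exact h'.2⟩
        · left
          exact ⟨⟨he1, Or.inr ⟨hq, h'.1⟩, he3⟩, by simp only [hg, hq, if_false]; exact h'.2⟩
    refine (card_le_card this).trans ((card_union_le _ _).trans ?_)
    exact Nat.add_le_add_left (card_union_le _ _) _
  refine (sum_le_sum h1).trans ?_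
  rw [sum_add_distrib, sum_add_distrib]
  have e1 : ∑ j ∈ Q.image f, #{e ∈ EdBd P k Q I | g e = j} = #(EdBd P k Q I) := by
    refine (card_eq_sum_card_fiberwise (f := g) ?_).symm
    intro e he
    rw [mem_coe, mem_EdBd] at he
    rw [mem_coe]
    simp only [hg]
    rcases he.2.1 with ⟨h, h'⟩ | ⟨h, h'⟩
    · rw [if_pos h]; exact mem_image_of_mem f h
    · rw [if_neg h]; exact mem_image_of_mem f h'
  have e2 : ∑ j ∈ Q.image f, #{e ∈ Cr P k Q I f | f e.1 = j} = #(Cr P k Q I f) := by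
    refine (card_eq_sum_card_fiberwise (f := fun e : Pt × Pt => f e.1) ?_).symm
    intro e he
    rw [mem_coe, mem_Cr, mem_EdIn] at he
    exact mem_coe.2 (mem_image_of_mem f he.1.2.1)
  have e3 : ∑ j ∈ Q.image f, #{e ∈ Cr P k Q I f | f e.2 = j} = #(Cr P k Q I f) := by
    refine (card_eq_sum_card_fiberwise (f := fun e : Pt × Pt => f e.2) ?_).symm
    intro e he
    rw [mem_coe, mem_Cr, mem_EdIn] at he
    exact mem_coe.2 (mem_image_of_mem f he.1.2.2.1)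
  rw [e1, e2, e3]
  omega

/-! ### the strip of a window -/

/-- the index of the strip -/
noncomputable def ix (a h : ℝ) (p : Pt) : ℤ := ⌊ht a p / h⌋

theorem slope_ht {p q : Pt} (h : p.1 < q.1) (m : ℝ) :
    ht m q - ht m p = (sl p q - m) * (q.1 - p.1) := by
  have h1 : q.1 - p.1 ≠ 0 := by linarith [h] |> ne_of_gt
  have h2 : sl p q * (q.1 - p.1) = q.2 - p.2 := by
    unfold sl
    exact div_mul_cancel₀ _ h1
  unfold ht
  linear_combination (-1 : ℝ) * h2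

theorem card_Cr_le {P : Finset Pt} {k : ℕ} {Q : Finset Pt} {a b h : ℝ} (hh : 0 < h)
    {M : ℤ} (hM : ∑ e ∈ EdIn P k Q (Set.Icc a b), (⌊ht a e.2 / h⌋ - ⌊ht a e.1 / h⌋) ≤ M) :
    (#(Cr P k Q (Set.Icc a b) (ix a h)) : ℤ) ≤ M := by
  classical
  refine le_trans ?_ hM
  have h0 : ∀ e ∈ EdIn P k Q (Set.Icc a b), 0 ≤ ⌊ht a e.2 / h⌋ - ⌊ht a e.1 / h⌋ := by
    intro e he
    have h1 := H616.edIn_lt he
    have h2 := slope_ht h1 a
    have h3 : a ≤ sl e.1 e.2 := (mem_EdIn.1 he).2.2.2.1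
    have h4 : 0 ≤ (sl e.1 e.2 - a) * (e.2.1 - e.1.1) :=
      mul_nonneg (by linarith) (by linarith)
    have h5 : ⌊ht a e.1 / h⌋ ≤ ⌊ht a e.2 / h⌋ := by
      apply Int.floor_le_floor
      apply div_le_div_of_nonneg_right _ hh.le
      linarith
    linarith
  calc (#(Cr P k Q (Set.Icc a b) (ix a h)) : ℤ)
      = ∑ e ∈ Cr P k Q (Set.Icc a b) (ix a h), (1 : ℤ) := by rw [sum_const, nsmul_eq_mul, mul_one]
    _ ≤ ∑ e ∈ Cr P k Q (Set.Icc a b) (ix a h), (⌊ht a e.2 / h⌋ - ⌊ht a e.1 / h⌋) := by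
        refine sum_le_sum fun e he => ?_
        obtain ⟨he1, he2⟩ := mem_Cr.1 he
        have h1 := h0 e he1
        have h2 : ⌊ht a e.1 / h⌋ ≠ ⌊ht a e.2 / h⌋ := he2
        omega
    _ ≤ _ := by
        refine sum_le_sum_of_subset_of_nonneg (fun e he => (mem_Cr.1 he).1) ?_
        intro e he _
        exact h0 e he

/-- abstract choice: if all `e j` are small, the sum is small -/
theorem choose_big {ι : Type*} (J : Finset ι) (e w : ι → ℕ) {C K y : ℝ} (hC : 1 ≤ C) (hK : 1 ≤ K)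
    (hy : 0 < y) (he : ∀ j ∈ J, (e j : ℝ) ^ 3 ≤ C ^ 3 * (w j : ℝ) ^ 4)
    (hw : ((∑ j ∈ J, w j : ℕ) : ℝ) ≤ 10 * K * y ^ 3)
    (hs : y ^ 4 / (2 * K) ≤ ((∑ j ∈ J, e j : ℕ) : ℝ)) :
    ∃ j ∈ J, y ^ 4 ≤ (40 ^ 4 * C ^ 3 * K ^ 8) * e j := by
  by_contra hcon
  push Not at hcon
  have hK0 : 0 < K := by linarith
  have hC0 : 0 < C := by linarith
  have h1 : ∀ j ∈ J, (e j : ℝ) ≤ y / (40 * K ^ 2) * w j := by
    intro j hj
    have h2 := hcon j hj
    have h3 : (e j : ℝ) ^ 4 ≤ (y / (40 * K ^ 2) * w j) ^ 4 := by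
      have h4 : (e j : ℝ) ≤ y ^ 4 / (40 ^ 4 * C ^ 3 * K ^ 8) := by
        rw [le_div_iff₀ (by positivity)]
        linarith
      calc (e j : ℝ) ^ 4 = (e j : ℝ) * (e j : ℝ) ^ 3 := by ring
        _ ≤ y ^ 4 / (40 ^ 4 * C ^ 3 * K ^ 8) * (C ^ 3 * (w j : ℝ) ^ 4) :=
            mul_le_mul h4 (he j hj) (by positivity) (by positivity)
        _ = _ := by field_simp
    exact le_of_pow_le_pow_left₀ (by norm_num) (by positivity) h3
  have h2 : ((∑ j ∈ J, e j : ℕ) : ℝ) ≤ y / (40 * K ^ 2) * (10 * K * y ^ 3) := by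
    calc ((∑ j ∈ J, e j : ℕ) : ℝ) = ∑ j ∈ J, (e j : ℝ) := by push_cast; rfl
      _ ≤ ∑ j ∈ J, y / (40 * K ^ 2) * w j := sum_le_sum h1
      _ = y / (40 * K ^ 2) * ((∑ j ∈ J, w j : ℕ) : ℝ) := by rw [← mul_sum]; push_cast; rfl
      _ ≤ _ := mul_le_mul_of_nonneg_left hw (by positivity)
  have h3 : y / (40 * K ^ 2) * (10 * K * y ^ 3) = y ^ 4 / (4 * K) := by
    field_simp
    ring
  have h4 : y ^ 4 / (4 * K) < y ^ 4 / (2 * K) := by
    apply div_lt_div_of_pos_left (by positivity) (by positivity)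
    linarith
  linarith

/-- **the strip of a window** -/
theorem strip (hDey : StDey) (hS : StStrips) : ∃ C : ℝ, 1 ≤ C ∧ ∀ (P : Finset Pt) (k : ℕ)
    (Q : Finset Pt) (a b del K y : ℝ), Good P → Q ⊆ P → (∀ p ∈ Q, 0 ≤ p.1 ∧ p.1 ≤ 1) →
    0 < del → b - a ≤ 2 * del → 1 ≤ K → 0 < y → 8 * K ^ 2 ≤ y →
    (#(Tch P k Q (Set.Icc a b)) : ℝ) ≤ K * y ^ 3 → (#(EdBd P k Q (Set.Icc a b)) : ℝ) ≤ K * y ^ 3 →
    y ^ 4 ≤ K * #(EdIn P k Q (Set.Icc a b)) →
    ∃ j : ℤ, y ^ 4 ≤ C * K ^ 8 * #(EdIn P k (Pj Q (ix a (2 * del)) j) (Set.Icc a b)) := by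
  classical
  obtain ⟨C₀, hC₀, dey⟩ := hDey
  refine ⟨40 ^ 4 * (max C₀ 1) ^ 3, ?_, ?_⟩
  · have : (1 : ℝ) ≤ (max C₀ 1) ^ 3 := one_le_pow₀ (le_max_right _ _)
    linarith
  intro P k Q a b del K y hP hQ hbox hdel hab hK hy hKy hT hV hE
  set C : ℝ := max C₀ 1 with hCdef
  have hC : 1 ≤ C := le_max_right _ _
  set I : Set ℝ := Set.Icc a b with hI
  set f : Pt → ℤ := ix a (2 * del) with hf
  have hIc : I.OrdConnected := Set.ordConnected_Icc
  -- crossing edges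
  have hcr : (#(Cr P k Q I f) : ℤ) ≤ 2 * ((#(Tch P k Q I) : ℤ) + #(EdBd P k Q I)) := by
    refine card_Cr_le (by linarith) ?_
    exact hS P k Q I a (2 * del) (2 * del) hP hQ hIc
      (fun s hs => ⟨hs.1, by have := hs.2; linarith⟩)
      (fun p hp q hq => by have := (hbox p hp).2; have := (hbox q hq).1; linarith) le_rfl
      (by linarith)
  have hcr' : #(Cr P k Q I f) ≤ 2 * (#(Tch P k Q I) + #(EdBd P k Q I)) := by exact_mod_cast hcr
  have hcr'' : (#(Cr P k Q I f) : ℝ) ≤ 2 * ((#(Tch P k Q I) : ℝ) + #(EdBd P k Q I)) := by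
    exact_mod_cast hcr'
  obtain ⟨j, _, hj⟩ := choose_big (Q.image f) (fun j => #(EdIn P k (Pj Q f j) I))
    (fun j => #(Tch P k (Pj Q f j) I) + #(EdBd P k (Pj Q f j) I)) hC hK hy (by
      intro j _
      have h1 := dey P k (Pj Q f j) I hP ((Pj_sub Q f j).trans hQ) hIc
      have h2 : (#(EdIn P k (Pj Q f j) I) : ℝ) ≤ C * ((#(Tch P k (Pj Q f j) I) : ℝ) *
          (#(Tch P k (Pj Q f j) I) + #(EdBd P k (Pj Q f j) I))) ^ (2 / 3 : ℝ) :=
        h1.trans (mul_le_mul_of_nonneg_right (le_max_left _ _) (by positivity))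
      have h3 := cube_dey (Nat.cast_nonneg _) (Nat.cast_nonneg _) (Nat.cast_nonneg _) h2
      refine h3.trans ?_
      push_cast
      have h4 : (#(Tch P k (Pj Q f j) I) : ℝ) ≤
          #(Tch P k (Pj Q f j) I) + #(EdBd P k (Pj Q f j) I) := by
        have : (0 : ℝ) ≤ #(EdBd P k (Pj Q f j) I) := Nat.cast_nonneg _
        linarith
      have h5 : (0 : ℝ) ≤ #(Tch P k (Pj Q f j) I) := Nat.cast_nonneg _
      apply mul_le_mul_of_nonneg_left _ (by positivity)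
      calc ((#(Tch P k (Pj Q f j) I) : ℝ) *
            (#(Tch P k (Pj Q f j) I) + #(EdBd P k (Pj Q f j) I))) ^ 2
          ≤ (((#(Tch P k (Pj Q f j) I) : ℝ) + #(EdBd P k (Pj Q f j) I)) *
            (#(Tch P k (Pj Q f j) I) + #(EdBd P k (Pj Q f j) I))) ^ 2 := by gcongr
        _ = _ := by ring) (by
      have h1 := sum_Tch P k Q I f
      have h2 := sum_EdBd P k Q I f
      have h3 : ∑ j ∈ Q.image f, (#(Tch P k (Pj Q f j) I) + #(EdBd P k (Pj Q f j) I)) ≤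
          5 * (#(Tch P k Q I) + #(EdBd P k Q I)) := by
        rw [sum_add_distrib]
        omega
      have h4 : ((∑ j ∈ Q.image f, (#(Tch P k (Pj Q f j) I) + #(EdBd P k (Pj Q f j) I)) : ℕ) : ℝ) ≤
          5 * ((#(Tch P k Q I) : ℝ) + #(EdBd P k Q I)) := by exact_mod_cast h3
      linarith) (by
      have h1 := sum_EdIn P k Q I f
      have h2 : (#(EdIn P k Q I) : ℝ) ≤
          ((∑ j ∈ Q.image f, #(EdIn P k (Pj Q f j) I) : ℕ) : ℝ) + #(Cr P k Q I f) := by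
        exact_mod_cast h1
      have h3 : y ^ 4 / K ≤ #(EdIn P k Q I) := by
        rw [div_le_iff₀ (by linarith)]
        linarith
      have h4 : 4 * K * y ^ 3 ≤ y ^ 4 / (2 * K) := by
        rw [le_div_iff₀ (by linarith)]
        have : (8 * K ^ 2) * y ^ 3 ≤ y * y ^ 3 := mul_le_mul_of_nonneg_right hKy (by positivity)
        linarith
      have h5 : y ^ 4 / K = y ^ 4 / (2 * K) + y ^ 4 / (2 * K) := by
        field_simp
        norm_num
      linarith)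
  exact ⟨j, hj⟩

end Vale.Agent.P065.UB.H966
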