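import Vale.Agent.P065.UB.H966.S35A

/-!
# P065, upper bound, line P: steps 3, 4, 5 (helper966), part B

The inequality for a column, and the trimming of the touched points of a window.
-/

set_option autoImplicit false

namespace Vale.Agent.P065.UB.H966

open Finset Vale.Agent.P065.UB Vale.Agent.P065.UB.P Vale.Agent.P065.UB.Win266

/-- the index of the column of width `1 / M` -/
noncomputable def col (M : ℝ) (p : Pt) : ℤ := ⌊p.1 * M⌋

theorem col_eq {M : ℝ} (hM : 0 < M) {p : Pt} {i : ℤ} :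
    col M p = i ↔ (i : ℝ) / M ≤ p.1 ∧ p.1 < ((i : ℝ) + 1) / M := by
  unfold col
  rw [Int.floor_eq_iff, div_le_iff₀ hM, lt_div_iff₀ hM]

theorem col_mono {M : ℝ} (hM : 0 < M) {p q : Pt} (h : p.1 ≤ q.1) : col M p ≤ col M q := by
  unfold col
  exact Int.floor_le_floor (mul_le_mul_of_nonneg_right h hM.le)

theorem e32 {C X E : ℝ} (hC : 1 ≤ C) (hX : 0 ≤ X) (hE : 0 ≤ E) (h : E ≤ C * X ^ (2 / 3 : ℝ)) :
    E ^ (3 / 2 : ℝ) ≤ C ^ 2 * X := by
  have hC0 : 0 ≤ C := by linarith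
  calc E ^ (3 / 2 : ℝ) ≤ (C * X ^ (2 / 3 : ℝ)) ^ (3 / 2 : ℝ) :=
        rp_mono hE h _ (by norm_num)
    _ = C ^ (3 / 2 : ℝ) * X := by
      rw [Real.mul_rpow hC0 (by positivity), ← Real.rpow_mul hX]
      norm_num
    _ ≤ C ^ 2 * X := by
      apply mul_le_mul_of_nonneg_right _ hX
      rw [← Real.rpow_natCast]
      exact Real.rpow_le_rpow_of_exponent_le hC (by norm_num)

open Classical in
/-- the edges which cross a vertical line -/
theorem cross_le {P : Finset Pt} (hP : Good P) {k : ℕ} {Q : Finset Pt} {I : Set ℝ}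
    (hI : I.OrdConnected) (c : ℝ) :
    #{e ∈ EdIn P k Q I | e.1.1 < c ∧ c ≤ e.2.1} ≤ #(Tch P k Q I) + #(EdBd P k Q I) := by
  have h := RankAux.halfplane hP (k := k) (Q := Q) hI (RankAux.isHalf_lt 1 0 c)
  refine le_trans (card_le_card ?_) h
  intro e he
  rw [mem_filter] at he ⊢
  refine ⟨he.1, Or.inl ⟨?_, ?_⟩⟩
  · show 1 * e.1.1 + 0 * e.1.2 < c
    linarith [he.2.1]
  · show ¬ (1 * e.2.1 + 0 * e.2.2 < c)
    have := he.2.2
    intro h'
    linarith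

/-- boundary edges of a column -/
theorem bd_col {P : Finset Pt} (hP : Good P) {k : ℕ} {Q : Finset Pt} {I : Set ℝ}
    (hI : I.OrdConnected) {M : ℝ} (hM : 0 < M) (i : ℤ) :
    #(EdBd P k (Pj Q (col M) i) I) ≤
      #(EdBd P k Q I) + 2 * (#(Tch P k Q I) + #(EdBd P k Q I)) := by
  classical
  have h := RankAux.box hP (k := k) (Q := Q) hI (Finset.univ : Finset Bool)
    (fun b => if b then {z : Pt | 1 * z.1 + 0 * z.2 < ((i : ℝ) + 1) / M}
      else {z : Pt | (i : ℝ) / M ≤ 1 * z.1 + 0 * z.2}) (by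
      intro b _
      cases b
      · exact RankAux.isHalf_ge 1 0 _
      · exact RankAux.isHalf_lt 1 0 _) (B := Pj Q (col M) i) (by
      intro z
      rw [mem_Pj, col_eq hM]
      constructor
      · rintro ⟨h1, h2, h3⟩
        refine ⟨h1, fun b _ => ?_⟩
        cases b
        · show (i : ℝ) / M ≤ 1 * z.1 + 0 * z.2
          linarith
        · show 1 * z.1 + 0 * z.2 < ((i : ℝ) + 1) / M
          linarith
      · rintro ⟨h1, h2⟩
        have h3 : (i : ℝ) / M ≤ 1 * z.1 + 0 * z.2 := h2 false (mem_univ _)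
        have h4 : 1 * z.1 + 0 * z.2 < ((i : ℝ) + 1) / M := h2 true (mem_univ _)
        exact ⟨h1, by linarith, by linarith⟩)
  simpa using h

/-- **one column**: many edges in the column force many pairs in the column -/
theorem column (hDey : StDey) (hRank : StRank) : ∃ C : ℝ, 1 ≤ C ∧ ∀ (P : Finset Pt) (k : ℕ)
    (Q : Finset Pt) (I : Set ℝ) (M : ℝ) (i : ℤ) (K y κ : ℝ) (A : Finset (Pt × Pt)), Good P →
    Q ⊆ P → I.OrdConnected → 0 < M → 1 ≤ K → 0 < y → 0 < κ → 4 * K ≤ κ * y →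
    (#(Tch P k Q I) : ℝ) ≤ K * y ^ 3 → (#(EdBd P k Q I) : ℝ) ≤ K * y ^ 3 →
    A ⊆ EdIn P k Q I → (∀ e ∈ A, col M e.1 = i) → κ * y ^ 4 ≤ #A →
    κ ^ 3 * y ^ 6 ≤ C * K ^ 2 * #(Sw (Pj Q (col M) i) I) := by
  classical
  obtain ⟨C₁, hC₁, hs⟩ := H616.sineq hDey hRank
  obtain ⟨C₀, hC₀, dey⟩ := hDey
  set C : ℝ := max C₀ 1 with hCdef
  have hC : 1 ≤ C := le_max_right _ _
  refine ⟨8 * C₁ * (2 * C ^ 2 + 25), ?_, ?_⟩
  · have : 0 ≤ C ^ 2 := by positivity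
    nlinarith
  intro P k Q I M i K y κ A hP hQ hI hM hK hy hκ hKy hT hV hA hAi hAc
  set B : Finset Pt := Pj Q (col M) i with hB
  have hBQ : B ⊆ Q := Pj_sub _ _ _
  -- inner edges
  have h1 : A ⊆ EdIn P k B I ∪
      ({e ∈ EdIn P k Q I | e.1.1 < ((i : ℝ) + 1) / M ∧ ((i : ℝ) + 1) / M ≤ e.2.1} :
        Finset (Pt × Pt)) := by
    intro e he
    have he1 := hA he
    have he2 := hAi e he
    have he3 := (col_eq hM).1 he2
    rw [mem_union, mem_filter]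
    by_cases h : col M e.2 = i
    · left
      have he4 := mem_EdIn.1 he1
      exact mem_EdIn.2 ⟨he4.1, mem_Pj.2 ⟨he4.2.1, he2⟩, mem_Pj.2 ⟨he4.2.2.1, h⟩, he4.2.2.2⟩
    · right
      refine ⟨he1, he3.2, ?_⟩
      have he5 := H616.edIn_lt he1
      by_contra hcon
      push Not at hcon
      exact h ((col_eq hM).2 ⟨by linarith [he3.1], hcon⟩)
  have h2 := (card_le_card h1).trans (card_union_le _ _)
  have h3 := cross_le hP (k := k) (Q := Q) hI (((i : ℝ) + 1) / M)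
  have h4 : (#A : ℝ) ≤ #(EdIn P k B I) + ((#(Tch P k Q I) : ℝ) + #(EdBd P k Q I)) := by
    exact_mod_cast h2.trans (Nat.add_le_add_left h3 _)
  have hy3 : 0 < y ^ 3 := by positivity
  have h5 : 4 * K * y ^ 3 ≤ κ * y ^ 4 := by
    calc 4 * K * y ^ 3 ≤ κ * y * y ^ 3 := mul_le_mul_of_nonneg_right hKy hy3.le
      _ = κ * y ^ 4 := by ring
  have h6 : κ * y ^ 4 / 2 ≤ #(EdIn P k B I) := by linarith
  -- boundary edges
  have h7 := bd_col hP (k := k) (Q := Q) hI hM i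
  have h8 : (#(EdBd P k B I) : ℝ) ≤ 5 * (K * y ^ 3) := by
    have : (#(EdBd P k B I) : ℝ) ≤
        #(EdBd P k Q I) + 2 * ((#(Tch P k Q I) : ℝ) + #(EdBd P k Q I)) := by exact_mod_cast h7
    linarith
  -- all edges
  have h9 : (#(EdIn P k B I) : ℝ) ^ (3 / 2 : ℝ) ≤ C ^ 2 * (2 * (K * y ^ 3) ^ 2) := by
    have a1 : (#(EdIn P k Q I) : ℝ) ≤ C *
        ((#(Tch P k Q I) : ℝ) * (#(Tch P k Q I) + #(EdBd P k Q I))) ^ (2 / 3 : ℝ) :=
      (dey P k Q I hP hQ hI).trans (mul_le_mul_of_nonneg_right (le_max_left _ _) (by positivity))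
    have a2 : (#(EdIn P k B I) : ℝ) ≤ #(EdIn P k Q I) := by
      exact_mod_cast card_le_card (EdIn_mono hBQ)
    have a3 := e32 hC (by positivity) (Nat.cast_nonneg _) (a2.trans a1)
    refine a3.trans (mul_le_mul_of_nonneg_left ?_ (by positivity))
    calc (#(Tch P k Q I) : ℝ) * (#(Tch P k Q I) + #(EdBd P k Q I))
        ≤ (K * y ^ 3) * (K * y ^ 3 + K * y ^ 3) := by gcongr
      _ = 2 * (K * y ^ 3) ^ 2 := by ring
  have h10 : (#(EdIn P k B I) : ℝ) ^ (3 / 2 : ℝ) + (#(EdBd P k B I) : ℝ) ^ 2 ≤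
      (2 * C ^ 2 + 25) * (K ^ 2 * y ^ 6) := by
    have b1 : (#(EdBd P k B I) : ℝ) ^ 2 ≤ (5 * (K * y ^ 3)) ^ 2 :=
      pow_le_pow_left₀ (Nat.cast_nonneg _) h8 2
    calc _ ≤ C ^ 2 * (2 * (K * y ^ 3) ^ 2) + (5 * (K * y ^ 3)) ^ 2 := add_le_add h9 b1
      _ = _ := by ring
  have h11 := hs P k B I hP (hBQ.trans hQ) hI
  have h12 : (κ * y ^ 4 / 2) ^ 3 ≤ C₁ * #(Sw B I) * ((2 * C ^ 2 + 25) * (K ^ 2 * y ^ 6)) := by
    calc (κ * y ^ 4 / 2) ^ 3 ≤ (#(EdIn P k B I) : ℝ) ^ 3 :=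
          pow_le_pow_left₀ (by positivity) h6 3
      _ ≤ _ := h11
      _ ≤ _ := mul_le_mul_of_nonneg_left h10 (by positivity)
  have h13 : (κ ^ 3 * y ^ 6) * (y ^ 6) ≤
      (8 * C₁ * (2 * C ^ 2 + 25) * K ^ 2 * #(Sw B I)) * y ^ 6 := by
    calc (κ ^ 3 * y ^ 6) * (y ^ 6) = 8 * (κ * y ^ 4 / 2) ^ 3 := by ring
      _ ≤ 8 * (C₁ * #(Sw B I) * ((2 * C ^ 2 + 25) * (K ^ 2 * y ^ 6))) := by linarith
      _ = _ := by ring
  exact le_of_mul_le_mul_right h13 (by positivity)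

/-- the two columns which meet an interval of length `1 / M` -/
theorem two_cols {M : ℝ} (hM : 0 < M) {x : ℝ} {p : Pt} (h1 : x ≤ p.1) (h2 : p.1 ≤ x + 1 / M) :
    col M p = ⌊x * M⌋ ∨ col M p = ⌊x * M⌋ + 1 := by
  have h3 : x * M ≤ p.1 * M := mul_le_mul_of_nonneg_right h1 hM.le
  have h4 : p.1 * M ≤ x * M + 1 := by
    have : p.1 * M ≤ (x + 1 / M) * M := mul_le_mul_of_nonneg_right h2 hM.le
    have h5 : (x + 1 / M) * M = x * M + 1 := by field_simp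
    linarith
  have h5 : ⌊x * M⌋ ≤ col M p := Int.floor_le_floor h3
  have h6 : col M p ≤ ⌊x * M⌋ + 1 := by
    have : col M p ≤ ⌊x * M + 1⌋ := Int.floor_le_floor h4
    rwa [Int.floor_add_one] at this
  omega

end Vale.Agent.P065.UB.H966
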