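import Vale.Agent.P065.UB.H966.S35B

/-!
# P065, upper bound, line P: steps 3, 4, 5 (helper966), part C

Trimming of the touched points of a strip: the columns with too many touched points are dropped.
-/

set_option autoImplicit false

namespace Vale.Agent.P065.UB.H966

open Finset Vale.Agent.P065.UB Vale.Agent.P065.UB.P Vale.Agent.P065.UB.Win266

theorem cbrt_pow {x : ℝ} (hx : 0 ≤ x) : (x ^ (1 / 3 : ℝ)) ^ 3 = x := by
  rw [← Real.rpow_natCast, ← Real.rpow_mul hx]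
  norm_num

theorem pow_cbrt {x : ℝ} (hx : 0 ≤ x) : (x ^ 3) ^ (1 / 3 : ℝ) = x := by
  rw [← Real.rpow_natCast, ← Real.rpow_mul hx]
  norm_num

theorem pow_two_thirds {x : ℝ} (hx : 0 ≤ x) : (x ^ 3) ^ (2 / 3 : ℝ) = x ^ 2 := by
  rw [← Real.rpow_natCast, ← Real.rpow_mul hx, ← Real.rpow_natCast]
  norm_num

/-- Dey for the edges inside a subset `T` of the touched points: a lower bound of `#T` -/
theorem card_low {P : Finset Pt} {k : ℕ} {Q : Finset Pt} {I : Set ℝ} {T : Finset Pt} {K D y : ℝ}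
    (hP : Good P) (hQ : Q ⊆ P) (hI : I.OrdConnected) (hT : T ⊆ Tch P k Q I) (hK : 1 ≤ K)
    (hD : 1 ≤ D) (hy : 0 < y) (hyK : 1696 * D * K ^ 3 ≤ y)
    (ht : (#(Tch P k Q I) : ℝ) ≤ K * y ^ 3) (hV : (#(EdBd P k Q I) : ℝ) ≤ K * y ^ 3)
    {A : Finset (Pt × Pt)} (hA : A ⊆ EdIn P k Q I) (hAT : ∀ e ∈ A, e.1 ∈ T ∧ e.2 ∈ T)
    (hE : y ^ 4 ≤ 2 * D * #A) : y ^ 3 ≤ 1696 ^ 3 * D ^ 3 * K ^ 9 * #T := by
  classical
  have h1 : A ⊆ U.H792.EdY P k Q I T := by
    intro e he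
    exact U.H792.mem_EdY.2 ⟨hA he, Or.inl (hAT e he).1⟩
  have h2 := U.H792.deyY P k Q I hP hQ hI T hT
  have h3 : (#A : ℝ) ≤ #(U.H792.EdY P k Q I T) := by exact_mod_cast card_le_card h1
  set u : ℝ := (#T : ℝ) ^ (1 / 3 : ℝ) with hu
  have hu0 : 0 ≤ u := by positivity
  have hu3 : u ^ 3 = #T := cbrt_pow (Nat.cast_nonneg _)
  have hK0 : 0 ≤ K := by linarith
  have h4 : ((#(Tch P k Q I) + #(EdBd P k Q I) : ℕ) : ℝ) ≤ (2 * K * y) ^ 3 := by
    push_cast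
    have a1 : (1 : ℝ) ≤ K ^ 2 := one_le_pow₀ hK
    have a2 : 2 * (K * y ^ 3) ≤ (2 * K * y) ^ 3 := by
      have a3 : (K * y ^ 3) * 1 ≤ (K * y ^ 3) * K ^ 2 :=
        mul_le_mul_of_nonneg_left a1 (by positivity)
      have a4 : (2 * K * y) ^ 3 = 8 * ((K * y ^ 3) * K ^ 2) := by ring
      have a5 : 0 ≤ K * y ^ 3 := by positivity
      linarith
    linarith
  have h5 : ((#(Tch P k Q I) + #(EdBd P k Q I) : ℕ) : ℝ) ^ (2 / 3 : ℝ) ≤ (2 * K * y) ^ 2 := by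
    rw [← pow_two_thirds (show 0 ≤ 2 * K * y by positivity)]
    exact Real.rpow_le_rpow (Nat.cast_nonneg _) h4 (by norm_num)
  have h6 : ((#T : ℝ) * #(Tch P k Q I)) ^ (1 / 3 : ℝ) ≤ u * K * y := by
    rw [← pow_cbrt (show 0 ≤ u * K * y by positivity)]
    refine Real.rpow_le_rpow (by positivity) ?_ (by norm_num)
    have a1 : K ≤ K ^ 3 := by
      have : (1 : ℝ) ≤ K ^ 2 := one_le_pow₀ hK
      nlinarith
    calc (#T : ℝ) * #(Tch P k Q I) ≤ u ^ 3 * (K * y ^ 3) := by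
          rw [hu3]
          exact mul_le_mul_of_nonneg_left ht (Nat.cast_nonneg _)
      _ ≤ u ^ 3 * (K ^ 3 * y ^ 3) := by gcongr
      _ = (u * K * y) ^ 3 := by ring
  have h7 : ((#(Tch P k Q I) + #(EdBd P k Q I) : ℕ) : ℝ) ≤ 2 * (K * y ^ 3) := by
    push_cast
    linarith
  have h8 : (#A : ℝ) ≤ 106 * ((2 * K * y) ^ 2 * (u * K * y) + 2 * (K * y ^ 3)) := by
    refine h3.trans (h2.trans ?_)
    apply mul_le_mul_of_nonneg_left _ (by norm_num)
    exact add_le_add (mul_le_mul h5 h6 (by positivity) (by positivity)) h7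
  have h9 : (#A : ℝ) ≤ 424 * K ^ 3 * y ^ 3 * (u + 1) := by
    have a1 : K ≤ K ^ 3 := by
      have : (1 : ℝ) ≤ K ^ 2 := one_le_pow₀ hK
      nlinarith
    have a2 : K * y ^ 3 ≤ K ^ 3 * y ^ 3 := mul_le_mul_of_nonneg_right a1 (by positivity)
    have a3 : 0 ≤ K ^ 3 * y ^ 3 := by positivity
    have a4 : 106 * ((2 * K * y) ^ 2 * (u * K * y) + 2 * (K * y ^ 3)) =
        424 * (K ^ 3 * y ^ 3) * u + 212 * (K * y ^ 3) := by ring
    have a5 : 424 * K ^ 3 * y ^ 3 * (u + 1) =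
        424 * (K ^ 3 * y ^ 3) * u + 424 * (K ^ 3 * y ^ 3) := by ring
    rw [a4] at h8
    rw [a5]
    linarith
  have hy3 : 0 < y ^ 3 := by positivity
  have h10 : y ≤ 848 * D * K ^ 3 * (u + 1) := by
    have a1 : y * y ^ 3 ≤ (848 * D * K ^ 3 * (u + 1)) * y ^ 3 := by
      calc y * y ^ 3 = y ^ 4 := by ring
        _ ≤ 2 * D * #A := hE
        _ ≤ 2 * D * (424 * K ^ 3 * y ^ 3 * (u + 1)) := mul_le_mul_of_nonneg_left h9 (by positivity)
        _ = _ := by ring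
    exact le_of_mul_le_mul_right a1 hy3
  have h11 : y ≤ 1696 * D * K ^ 3 * u := by
    have a1 : 848 * D * K ^ 3 * (u + 1) = 848 * D * K ^ 3 * u + 848 * D * K ^ 3 := by ring
    rw [a1] at h10
    linarith
  calc y ^ 3 ≤ (1696 * D * K ^ 3 * u) ^ 3 := pow_le_pow_left₀ hy.le h11 3
    _ = 1696 ^ 3 * D ^ 3 * K ^ 9 * u ^ 3 := by ring
    _ = _ := by rw [hu3]

open Classical in
/-- the touched points of the strip outside the heavy columns -/
noncomputable def Tr (T0 : Finset Pt) (M B : ℝ) : Finset Pt :=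
  {p ∈ T0 | (#{q ∈ T0 | col M q = col M p} : ℝ) ≤ B}

open Classical in
theorem Tr_col {T0 : Finset Pt} {M B : ℝ} (hB : 0 ≤ B) (i : ℤ) :
    (#{p ∈ Tr T0 M B | col M p = i} : ℝ) ≤ B := by
  rcases ({p ∈ Tr T0 M B | col M p = i} : Finset Pt).eq_empty_or_nonempty with h | ⟨p, hp⟩
  · rw [h]; simpa using hB
  · rw [mem_filter, Tr, mem_filter] at hp
    obtain ⟨⟨h1, h2⟩, h3⟩ := hp
    refine le_trans ?_ h2
    have : ({p ∈ Tr T0 M B | col M p = i} : Finset Pt) ⊆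
        ({q ∈ T0 | col M q = col M p} : Finset Pt) := by
      intro q hq
      rw [mem_filter, Tr, mem_filter] at hq
      rw [mem_filter]
      exact ⟨hq.1.1, hq.2.trans h3.symm⟩
    exact_mod_cast card_le_card this

/-- **trimming** -/
theorem trim {P : Finset Pt} {k : ℕ} {Q S : Finset Pt} {I : Set ℝ} {M K D y z : ℝ}
    (hP : Good P) (hQ : Q ⊆ P) (hS : S ⊆ Q) (hI : I.OrdConnected) (hM : 0 < M) (hK : 1 ≤ K)
    (hD : 1 ≤ D) (hy : 0 < y) (hz : 0 < z) (hz1 : 8 * K * D * z ≤ 1)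
    (hzy : 16 * K ^ 2 * D ≤ z * y) (hyK : 1696 * D * K ^ 3 ≤ y)
    (ht : (#(Tch P k Q I) : ℝ) ≤ K * y ^ 3) (hV : (#(EdBd P k Q I) : ℝ) ≤ K * y ^ 3)
    (hcol : ∀ i : ℤ, ∀ A : Finset (Pt × Pt), A ⊆ EdIn P k S I → (∀ e ∈ A, col M e.1 = i) →
      (#A : ℝ) ≤ z ^ 2 * y ^ 4)
    (hE : y ^ 4 ≤ D * #(EdIn P k S I)) :
    ∃ T ⊆ Tch P k S I, ∀ A : Finset (Pt × Pt),
      (∀ e, e ∈ A ↔ e ∈ EdIn P k Q I ∧ e.1 ∈ T ∧ e.2 ∈ T) →
      y ^ 4 ≤ 2 * D * #A ∧ y ^ 3 ≤ 1696 ^ 3 * D ^ 3 * K ^ 9 * #T ∧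
      (∀ x : ℝ, ∀ X ⊆ T, (∀ p ∈ X, x ≤ p.1 ∧ p.1 ≤ x + 1 / M) → (#X : ℝ) ≤ z * y ^ 3) ∧
      (∀ x : ℝ, ∀ X ⊆ A, (∀ e ∈ X, x ≤ e.1.1 ∧ e.1.1 ≤ x + 1 / M) → (#X : ℝ) ≤ z * y ^ 4) := by
  classical
  set T0 : Finset Pt := Tch P k S I with hT0
  set B : ℝ := z / 2 * y ^ 3 with hBdef
  have hB : 0 < B := by positivity
  set T : Finset Pt := Tr T0 M B with hTdef
  have hTT0 : T ⊆ T0 := filter_subset _ _
  have hT0Q : T0 ⊆ Tch P k Q I := Tch_mono hS
  have hTS : T ⊆ S := fun p hp => (mem_Tch'.1 (hTT0 hp)).1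
  refine ⟨T, hTT0, fun A hA => ?_⟩
  -- heavy columns
  set Hv : Finset ℤ := {i ∈ T0.image (col M) | B < (#{q ∈ T0 | col M q = i} : ℝ)} with hHv
  have hHvc : (#Hv : ℝ) * B ≤ K * y ^ 3 := by
    have h1 : ∑ i ∈ T0.image (col M), #{q ∈ T0 | col M q = i} = #T0 :=
      (card_eq_sum_card_fiberwise (f := col M) (fun p hp => by
        rw [mem_coe] at hp ⊢
        exact mem_image_of_mem _ hp)).symm
    have h2 : ∑ i ∈ Hv, #{q ∈ T0 | col M q = i} ≤ #T0 := by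
      rw [← h1]
      exact sum_le_sum_of_subset (filter_subset _ _)
    have h3 : (#Hv : ℝ) * B ≤ ((∑ i ∈ Hv, #{q ∈ T0 | col M q = i} : ℕ) : ℝ) := by
      push_cast
      rw [← nsmul_eq_mul, ← sum_const]
      exact sum_le_sum fun i hi => (mem_filter.1 hi).2.le
    have h4 : (#T0 : ℝ) ≤ #(Tch P k Q I) := by exact_mod_cast card_le_card hT0Q
    have h5 : ((∑ i ∈ Hv, #{q ∈ T0 | col M q = i} : ℕ) : ℝ) ≤ #T0 := by exact_mod_cast h2
    linarith
  have hy3 : 0 < y ^ 3 := by positivity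
  have hHv2 : (#Hv : ℝ) * z ≤ 2 * K := by
    have h1 : ((#Hv : ℝ) * z) * y ^ 3 ≤ (2 * K) * y ^ 3 := by
      have : (#Hv : ℝ) * B = ((#Hv : ℝ) * z) * y ^ 3 / 2 := by rw [hBdef]; ring
      linarith
    exact le_of_mul_le_mul_right h1 hy3
  -- a point of `T0` outside `T` is in a heavy column
  have hnT : ∀ p ∈ T0, p ∉ T → col M p ∈ Hv := by
    intro p hp hpT
    rw [hHv, mem_filter]
    refine ⟨mem_image_of_mem _ hp, ?_⟩
    by_contra hcon
    push Not at hcon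
    exact hpT (mem_filter.2 ⟨hp, hcon⟩)
  -- the lost edges
  have hsub : EdIn P k S I ⊆ A ∪ (Hv.biUnion fun i =>
      ({e ∈ EdIn P k S I | col M e.1 = i} : Finset (Pt × Pt)) ∪
      ({e ∈ EdIn P k Q I | e.1.1 < (i : ℝ) / M ∧ (i : ℝ) / M ≤ e.2.1} : Finset (Pt × Pt))) := by
    intro e he
    have he1 := EdIn_mono hS he
    have he2 := mem_EdIn.1 he
    have he3 : e.1 ∈ T0 := mem_Tch'.2 ⟨he2.2.1, e, he, Or.inl rfl⟩
    have he4 : e.2 ∈ T0 := mem_Tch'.2 ⟨he2.2.2.1, e, he, Or.inr rfl⟩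
    have he5 := H616.edIn_lt he
    rw [mem_union]
    by_cases h1 : e.1 ∈ T
    · by_cases h2 : e.2 ∈ T
      · left; exact (hA e).2 ⟨he1, h1, h2⟩
      · right
        have h3 := hnT _ he4 h2
        rw [mem_biUnion]
        refine ⟨col M e.2, h3, ?_⟩
        rw [mem_union, mem_filter, mem_filter]
        by_cases h4 : col M e.1 = col M e.2
        · left; exact ⟨he, h4⟩
        · right
          refine ⟨he1, ?_, ((col_eq hM).1 rfl).1⟩
          have h5 := col_mono hM he5.le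
          have h6 : col M e.1 + 1 ≤ col M e.2 := by omega
          have h7 := ((col_eq hM).1 (rfl : col M e.1 = col M e.1)).2
          have h8 : ((col M e.1 : ℝ) + 1) / M ≤ (col M e.2 : ℝ) / M := by
            apply div_le_div_of_nonneg_right _ hM.le
            exact_mod_cast h6
          linarith
    · right
      have h3 := hnT _ he3 h1
      rw [mem_biUnion]
      refine ⟨col M e.1, h3, ?_⟩
      rw [mem_union, mem_filter]
      left; exact ⟨he, rfl⟩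
  have hlost : (#(EdIn P k S I) : ℝ) ≤ #A + #Hv * (z ^ 2 * y ^ 4 + 2 * (K * y ^ 3)) := by
    have h1 := (card_le_card hsub).trans (card_union_le _ _)
    have h2 : ((#(Hv.biUnion fun i =>
      ({e ∈ EdIn P k S I | col M e.1 = i} : Finset (Pt × Pt)) ∪
      ({e ∈ EdIn P k Q I | e.1.1 < (i : ℝ) / M ∧ (i : ℝ) / M ≤ e.2.1} : Finset (Pt × Pt))) : ℕ) : ℝ)
        ≤ #Hv * (z ^ 2 * y ^ 4 + 2 * (K * y ^ 3)) := by
      refine le_trans (Nat.cast_le.2 card_biUnion_le) ?_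
      push_cast
      rw [← nsmul_eq_mul, ← sum_const]
      refine sum_le_sum fun i _ => ?_
      refine le_trans (Nat.cast_le.2 (card_union_le _ _)) ?_
      push_cast
      apply add_le_add
      · exact hcol i _ (filter_subset _ _) (fun e he => (mem_filter.1 he).2)
      · have h3 := cross_le hP (k := k) (Q := Q) hI ((i : ℝ) / M)
        have h4 : ((#{e ∈ EdIn P k Q I | e.1.1 < (i : ℝ) / M ∧ (i : ℝ) / M ≤ e.2.1} : ℕ) : ℝ) ≤
            (#(Tch P k Q I) : ℝ) + #(EdBd P k Q I) := by exact_mod_cast h3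
        linarith
    have h3 : (#(EdIn P k S I) : ℝ) ≤ #A + ((#(Hv.biUnion fun i =>
      ({e ∈ EdIn P k S I | col M e.1 = i} : Finset (Pt × Pt)) ∪
      ({e ∈ EdIn P k Q I | e.1.1 < (i : ℝ) / M ∧ (i : ℝ) / M ≤ e.2.1} : Finset (Pt × Pt))) : ℕ) :
        ℝ) := by exact_mod_cast h1
    linarith
  have hedges : y ^ 4 ≤ 2 * D * #A := by
    have hHv0 : (0 : ℝ) ≤ #Hv := Nat.cast_nonneg _
    -- first loss
    have h1 : D * (#Hv * (z ^ 2 * y ^ 4)) ≤ y ^ 4 / 4 := by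
      have a1 : D * (#Hv * (z ^ 2 * y ^ 4)) = (D * z * y ^ 4) * (#Hv * z) := by ring
      have a2 : (D * z * y ^ 4) * (#Hv * z) ≤ (D * z * y ^ 4) * (2 * K) :=
        mul_le_mul_of_nonneg_left hHv2 (by positivity)
      have a3 : (D * z * y ^ 4) * (2 * K) = (8 * K * D * z) * (y ^ 4 / 4) := by ring
      have a4 : (8 * K * D * z) * (y ^ 4 / 4) ≤ 1 * (y ^ 4 / 4) :=
        mul_le_mul_of_nonneg_right hz1 (by positivity)
      linarith
    -- second loss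
    have h2 : D * (#Hv * (2 * (K * y ^ 3))) ≤ y ^ 4 / 4 := by
      have a1 : (z * (D * (#Hv * (2 * (K * y ^ 3))))) ≤ z * (y ^ 4 / 4) := by
        calc (z * (D * (#Hv * (2 * (K * y ^ 3))))) = (2 * D * K * y ^ 3) * (#Hv * z) := by ring
          _ ≤ (2 * D * K * y ^ 3) * (2 * K) := mul_le_mul_of_nonneg_left hHv2 (by positivity)
          _ = (16 * K ^ 2 * D) * (y ^ 3 / 4) := by ring
          _ ≤ (z * y) * (y ^ 3 / 4) := mul_le_mul_of_nonneg_right hzy (by positivity)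
          _ = _ := by ring
      exact le_of_mul_le_mul_left a1 hz
    have h3 : D * (#(EdIn P k S I) : ℝ) ≤
        D * #A + (D * (#Hv * (z ^ 2 * y ^ 4)) + D * (#Hv * (2 * (K * y ^ 3)))) := by
      calc D * (#(EdIn P k S I) : ℝ)
          ≤ D * (#A + #Hv * (z ^ 2 * y ^ 4 + 2 * (K * y ^ 3))) :=
            mul_le_mul_of_nonneg_left hlost (by linarith)
        _ = _ := by ring
    linarith
  have hAQ : A ⊆ EdIn P k Q I := fun e he => ((hA e).1 he).1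
  have hAT : ∀ e ∈ A, e.1 ∈ T ∧ e.2 ∈ T := fun e he => ((hA e).1 he).2
  refine ⟨hedges, card_low hP hQ hI (hTT0.trans hT0Q) hK hD hy hyK ht hV hAQ hAT hedges, ?_, ?_⟩
  · intro x X hXT hX
    have h1 : X ⊆ ({p ∈ T | col M p = ⌊x * M⌋} : Finset Pt) ∪
        ({p ∈ T | col M p = ⌊x * M⌋ + 1} : Finset Pt) := by
      intro p hp
      rw [mem_union, mem_filter, mem_filter]
      rcases two_cols hM (hX p hp).1 (hX p hp).2 with h | h
      · left; exact ⟨hXT hp, h⟩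
      · right; exact ⟨hXT hp, h⟩
    have h2 := (card_le_card h1).trans (card_union_le _ _)
    have h3 : (#X : ℝ) ≤ (#{p ∈ T | col M p = ⌊x * M⌋} : ℝ) +
        #{p ∈ T | col M p = ⌊x * M⌋ + 1} := by exact_mod_cast h2
    have h4 := Tr_col (T0 := T0) (M := M) hB.le ⌊x * M⌋
    have h5 := Tr_col (T0 := T0) (M := M) hB.le (⌊x * M⌋ + 1)
    have h6 : B + B = z * y ^ 3 := by rw [hBdef]; ring
    rw [← hTdef] at h4 h5
    linarith
  · intro x X hXA hX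
    have hXS : ∀ e ∈ X, e ∈ EdIn P k S I := by
      intro e he
      have h1 := mem_EdIn.1 (hAQ (hXA he))
      have h2 := hAT e (hXA he)
      exact mem_EdIn.2 ⟨h1.1, hTS h2.1, hTS h2.2, h1.2.2.2⟩
    have h1 : X ⊆ ({e ∈ X | col M e.1 = ⌊x * M⌋} : Finset (Pt × Pt)) ∪
        ({e ∈ X | col M e.1 = ⌊x * M⌋ + 1} : Finset (Pt × Pt)) := by
      intro e he
      rw [mem_union, mem_filter, mem_filter]
      rcases two_cols hM (hX e he).1 (hX e he).2 with h | h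
      · left; exact ⟨he, h⟩
      · right; exact ⟨he, h⟩
    have h2 := (card_le_card h1).trans (card_union_le _ _)
    have h3 : (#X : ℝ) ≤ (#{e ∈ X | col M e.1 = ⌊x * M⌋} : ℝ) +
        #{e ∈ X | col M e.1 = ⌊x * M⌋ + 1} := by exact_mod_cast h2
    have h4 := hcol ⌊x * M⌋ {e ∈ X | col M e.1 = ⌊x * M⌋}
      (fun e he => hXS e (mem_filter.1 he).1) (fun e he => (mem_filter.1 he).2)
    have h5 := hcol (⌊x * M⌋ + 1) {e ∈ X | col M e.1 = ⌊x * M⌋ + 1}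
      (fun e he => hXS e (mem_filter.1 he).1) (fun e he => (mem_filter.1 he).2)
    have h6 : 2 * z ≤ 1 := by
      have : 1 * (1 * z) ≤ K * (D * z) := by gcongr
      have h7 : 8 * K * D * z = 8 * (K * (D * z)) := by ring
      rw [h7] at hz1
      linarith
    have h7 : z ^ 2 * y ^ 4 + z ^ 2 * y ^ 4 ≤ z * y ^ 4 := by
      have : (2 * z) * (z * y ^ 4) ≤ 1 * (z * y ^ 4) :=
        mul_le_mul_of_nonneg_right h6 (by positivity)
      linarith
    linarith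

end Vale.Agent.P065.UB.H966
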